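import Mathlib

/-!
# Trace reconstruction: basic definitions

The deletion channel with deletion probability `q` keeps each bit of a binary string
independently with probability `1 - q`.  All probabilities are written as finite sums.
-/

namespace Vale.Agent.P321

/-- Expected value of `φ (trace of x)` for the deletion channel with deletion probability `q`.
`x.sublists'` lists the `2 ^ x.length` subsequences of `x`, one for each set of kept positions;
the subsequence `w` coming from a set of `w.length` kept positions has probability
`(1 - q) ^ w.length * q ^ (x.length - w.length)`. -/
noncomputable def traceExp (q : ℝ) (x : List Bool) (φ : List Bool → ℝ) : ℝ :=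
  ((x.sublists').map
    (fun w => (1 - q) ^ w.length * q ^ (x.length - w.length) * φ w)).sum

/-- Expected value of `Φ [w₁, …, w_m]` for `m` independent traces `w₁, …, w_m` of `x`
(iterated expectation). -/
noncomputable def samplesExp (q : ℝ) (x : List Bool) : ℕ → (List (List Bool) → ℝ) → ℝ
  | 0, Φ => Φ []
  | (m + 1), Φ => traceExp q x (fun w => samplesExp q x m (fun ws => Φ (w :: ws)))

/-- A (possibly randomized) estimator for strings of length `n`: to each finite sequence of
binary strings it assigns a probability distribution on `{0,1}^n`; `est ws y` is the probability
that the output is `y` when the observed sequence of traces is `ws`. -/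
def IsEstimator {n : ℕ} (est : List (List Bool) → List.Vector Bool n → ℝ) : Prop :=
  (∀ ws y, 0 ≤ est ws y) ∧ ∀ ws, ∑ y, est ws y = 1

/-- Probability that the estimator `est`, given `m` independent traces of `x`, outputs `x`. -/
noncomputable def successProb (q : ℝ) {n : ℕ} (m : ℕ)
    (est : List (List Bool) → List.Vector Bool n → ℝ) (x : List.Vector Bool n) : ℝ :=
  samplesExp q x.toList m (fun ws => est ws x)

end Vale.Agent.P321
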