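import Mathlib

/-!
# Binomial identities, Vandermonde, symmetry
-/

namespace Vale.Agent.P321

open Finset

/-- `A C(A-1,j) = (A-j) C(A,j)` over the reals. -/
theorem choose_pred_mul (A j : ℕ) (hA : 1 ≤ A) :
    (A : ℝ) * ((A - 1).choose j : ℝ) = ((A : ℝ) - j) * (A.choose j : ℝ) := by
  obtain ⟨B, rfl⟩ : ∃ B, A = B + 1 := ⟨A - 1, by omega⟩
  simp only [Nat.add_sub_cancel]
  rcases Nat.lt_or_ge B j with h | h
  · rcases Nat.lt_or_ge (B + 1) j with h2 | h2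
    · rw [Nat.choose_eq_zero_of_lt h, Nat.choose_eq_zero_of_lt h2]; simp
    · have : j = B + 1 := by omega
      subst this
      rw [Nat.choose_eq_zero_of_lt h]; simp
  · have h1 := Nat.choose_mul_succ_eq B j
    have h2 : ((B.choose j : ℝ)) * ((B : ℝ) + 1) = ((B + 1).choose j : ℝ) * ((B : ℝ) + 1 - j) := by
      have : ((B.choose j * (B + 1) : ℕ) : ℝ) = (((B + 1).choose j * (B + 1 - j) : ℕ) : ℝ) := by
        rw [h1]
      rw [Nat.cast_mul, Nat.cast_mul, Nat.cast_sub (by omega)] at this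
      push_cast at this
      exact this
    push_cast
    linarith

/-- `j C(A,j) = A C(A-1,j-1)` (`Nat.succ_mul_choose_eq`). -/
theorem mul_choose_eq (A j : ℕ) (hA : 1 ≤ A) (hj : 1 ≤ j) :
    (j : ℝ) * (A.choose j : ℝ) = (A : ℝ) * ((A - 1).choose (j - 1) : ℝ) := by
  obtain ⟨B, rfl⟩ : ∃ B, A = B + 1 := ⟨A - 1, by omega⟩
  obtain ⟨i, rfl⟩ : ∃ i, j = i + 1 := ⟨j - 1, by omega⟩
  simp only [Nat.add_sub_cancel]
  have h := Nat.add_one_mul_choose_eq B i
  have : (((B + 1) * B.choose i : ℕ) : ℝ) = (((B + 1).choose (i + 1) * (i + 1) : ℕ) : ℝ) := by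
    exact_mod_cast congrArg (Nat.cast : ℕ → ℝ) h
  push_cast at this ⊢
  linarith

/-- Vandermonde. -/
theorem hyper_total (A B L : ℕ) :
    ∑ k ∈ range (L + 1), (A.choose k : ℝ) * (B.choose (L - k) : ℝ) = ((A + B).choose L : ℝ) := by
  rw [Nat.add_choose_eq, Finset.Nat.sum_antidiagonal_eq_sum_range_succ_mk]
  push_cast
  rfl

/-- The symmetric hypergeometric weights have mean `L / 2`. -/
theorem hyper_mean (A L : ℕ) :
    ∑ k ∈ range (L + 1), (A.choose k : ℝ) * (A.choose (L - k) : ℝ) * (2 * (k : ℝ) - L) = 0 := by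
  have h := Finset.sum_range_reflect
    (fun k => (A.choose k : ℝ) * (A.choose (L - k) : ℝ) * (2 * (k : ℝ) - L)) (L + 1)
  have h2 : ∑ j ∈ range (L + 1),
      ((A.choose (L + 1 - 1 - j) : ℝ) * (A.choose (L - (L + 1 - 1 - j)) : ℝ)
        * (2 * ((L + 1 - 1 - j : ℕ) : ℝ) - L))
      = - ∑ k ∈ range (L + 1), (A.choose k : ℝ) * (A.choose (L - k) : ℝ) * (2 * (k : ℝ) - L) := by
    rw [← Finset.sum_neg_distrib]
    refine Finset.sum_congr rfl (fun j hj => ?_)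
    have hj' : j ≤ L := by
      have := Finset.mem_range.mp hj
      omega
    have e1 : L + 1 - 1 - j = L - j := by omega
    have e2 : L - (L - j) = j := by omega
    rw [e1, e2, Nat.cast_sub hj']
    ring
  rw [h2] at h
  linarith

/-- `C(2A,L) (2A-L) = 2A C(2A-1,L)`. -/
theorem choose_two_mul_pred (A L : ℕ) (hA : 1 ≤ A) :
    ((2 * A).choose L : ℝ) * (2 * (A : ℝ) - L) = 2 * A * ((2 * A - 1).choose L : ℝ) := by
  have h := choose_pred_mul (2 * A) L (by omega)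
  push_cast at h
  linarith

/-- `C(2A+2,L+1) (L+1) (2A+1-L) = C(2A,L) (2A+2) (2A+1)`. -/
theorem choose_two_step (A L : ℕ) (hL : L ≤ 2 * A) :
    ((2 * (A + 1)).choose (L + 1) : ℝ) * (((L : ℝ) + 1) * (2 * (A : ℝ) + 1 - L))
      = ((2 * A).choose L : ℝ) * ((2 * (A : ℝ) + 2) * (2 * A + 1)) := by
  have h1 := mul_choose_eq (2 * (A + 1)) (L + 1) (by omega) (by omega)
  have h2 := choose_pred_mul (2 * A + 1) L (by omega)
  have e1 : 2 * (A + 1) - 1 = 2 * A + 1 := by omega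
  have e2 : 2 * A + 1 - 1 = 2 * A := by omega
  rw [e1, Nat.add_sub_cancel] at h1
  rw [e2] at h2
  push_cast at h1 h2
  calc ((2 * (A + 1)).choose (L + 1) : ℝ) * (((L : ℝ) + 1) * (2 * (A : ℝ) + 1 - L))
      = (((L : ℝ) + 1) * ((2 * (A + 1)).choose (L + 1) : ℝ)) * (2 * (A : ℝ) + 1 - L) := by ring
    _ = (2 * ((A : ℝ) + 1) * ((2 * A + 1).choose L : ℝ)) * (2 * (A : ℝ) + 1 - L) := by rw [h1]
    _ = 2 * ((A : ℝ) + 1) * ((2 * (A : ℝ) + 1 - L) * ((2 * A + 1).choose L : ℝ)) := by ring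
    _ = 2 * ((A : ℝ) + 1) * ((2 * (A : ℝ) + 1) * ((2 * A).choose L : ℝ)) := by rw [← h2]
    _ = ((2 * A).choose L : ℝ) * ((2 * (A : ℝ) + 2) * (2 * A + 1)) := by ring

end Vale.Agent.P321
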