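import Vale.Agent.P321.Rep
import Vale.Agent.P321.Hyp1

/-!
# The discrimination `DeltaA` between the two neighbouring experiments
-/

namespace Vale.Agent.P321

open Finset

/-- The constant `2 + 4 / π₀`, where `π₀ = (1-q) q / (1 - q^2)` is the conditional probability
that a nonempty block output is the token `z`. -/
noncomputable def c0 (q : ℝ) : ℝ := 2 + 4 * (1 - q ^ 2) / ((1 - q) * q)

/-- `q` times the triangular discrimination between the enriched experiments of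
`(01)^(A-1) 0 (01)^A pad` and `(01)^A 0 (01)^(A-1) pad`. -/
noncomputable def DeltaA (q : ℝ) (A : ℕ) : ℝ :=
  ∑ L ∈ range (2 * A - 1 + 1), q ^ (2 * (2 * A - 1 - L))
    * ∑ z : Fin (L + 1) → Tok, (∏ j, nu q (z j))
      * ((Dw (A - 1) A L z - Dw A (A - 1) L z) ^ 2 / (Dw (A - 1) A L z + Dw A (A - 1) L z))

theorem c0_pos (q : ℝ) (hq0 : 0 < q) (hq1 : q < 1) : 0 < c0 q := by
  unfold c0
  have h1 : 0 < 1 - q := by linarith
  have h2 : 0 < 1 - q ^ 2 := by nlinarith
  positivity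

/-- the two binomials with `A - 1`, divided form -/
theorem choose_pred_div (A j : ℕ) (hA : 1 ≤ A) :
    ((A - 1).choose j : ℝ) = (((A : ℝ) - j) / A) * (A.choose j : ℝ) := by
  have hA0 : (A : ℝ) ≠ 0 := by
    have : (1 : ℝ) ≤ A := by exact_mod_cast hA
    linarith
  have h := choose_pred_mul A j hA
  field_simp
  linarith

/-- Sketch: unfold `Dw`, `Finset.mul_sum`, `Finset.sum_add_distrib`, termwise: by
`choose_pred_mul`, `C(A-1,k) = ((A-k)/A) C(A,k)` and `C(A-1,L-k) = ((A-(L-k))/A) C(A,L-k)`;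
the cast of `L - k` is `L - k` because `k ≤ L` (`k : Fin (L+1)`). -/
theorem Dw_add (A L : ℕ) (hA : 1 ≤ A) (z : Fin (L + 1) → Tok) :
    Dw (A - 1) A L z + Dw A (A - 1) L z
      = ((2 * (A : ℝ) - L) / A) * ∑ k : Fin (L + 1),
          (A.choose k : ℝ) * (A.choose (L - k) : ℝ) * (if z k = Tok.z then 1 else 0) := by
  have hA0 : (A : ℝ) ≠ 0 := by
    have : (1 : ℝ) ≤ A := by exact_mod_cast hA
    linarith
  unfold Dw
  rw [Finset.mul_sum, ← Finset.sum_add_distrib]
  refine Finset.sum_congr rfl fun k _ => ?_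
  have hk : (k : ℕ) ≤ L := Nat.lt_succ_iff.mp k.2
  have hc : ((L - (k : ℕ) : ℕ) : ℝ) = (L : ℝ) - (k : ℕ) := by
    rw [Nat.cast_sub hk]
  rw [choose_pred_div A k hA, choose_pred_div A (L - k) hA, hc]
  field_simp
  ring

/-- Same computation as `Dw_add`. -/
theorem Dw_sub (A L : ℕ) (hA : 1 ≤ A) (z : Fin (L + 1) → Tok) :
    Dw (A - 1) A L z - Dw A (A - 1) L z
      = -(1 / (A : ℝ)) * ∑ k : Fin (L + 1),
          (A.choose k : ℝ) * (A.choose (L - k) : ℝ) * (2 * ((k : ℕ) : ℝ) - L)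
            * (if z k = Tok.z then 1 else 0) := by
  have hA0 : (A : ℝ) ≠ 0 := by
    have : (1 : ℝ) ≤ A := by exact_mod_cast hA
    linarith
  unfold Dw
  rw [Finset.mul_sum, ← Finset.sum_sub_distrib]
  refine Finset.sum_congr rfl fun k _ => ?_
  have hk : (k : ℕ) ≤ L := Nat.lt_succ_iff.mp k.2
  have hc : ((L - (k : ℕ) : ℕ) : ℝ) = (L : ℝ) - (k : ℕ) := by
    rw [Nat.cast_sub hk]
  rw [choose_pred_div A k hA, choose_pred_div A (L - k) hA, hc]
  field_simp
  ring

/-- All terms are nonnegative (`Dw_nonneg`, `nu_nonneg`, `Finset.sum_nonneg`, `div_nonneg`). -/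
theorem DeltaA_nonneg (q : ℝ) (hq0 : 0 < q) (hq1 : q < 1) (A : ℕ) : 0 ≤ DeltaA q A := by
  unfold DeltaA
  refine Finset.sum_nonneg fun L _ => mul_nonneg (pow_nonneg hq0.le _) ?_
  refine Finset.sum_nonneg fun z _ => mul_nonneg ?_ ?_
  · exact Finset.prod_nonneg fun j _ => nu_nonneg q hq0.le hq1.le (z j)
  · exact div_nonneg (sq_nonneg _) (add_nonneg (Dw_nonneg _ _ _ _) (Dw_nonneg _ _ _ _))

end Vale.Agent.P321
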