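import Vale.Agent.P321.Hyp1

/-!
# Second moment of the symmetric hypergeometric weights
-/

namespace Vale.Agent.P321

open Finset

/-- Mixed factorial moment: `∑ C(A,k) C(A,L-k) k (L-k) = A^2 C(2A-2,L-2)` (zero when `L < 2`).
Sketch: for `L ≤ 1` every term has `k = 0` or `L - k = 0`.  For `L = L' + 2`: the terms `k = 0` and
`k = L` vanish; for `1 ≤ k ≤ L - 1` use `mul_choose_eq` twice
(`k C(A,k) = A C(A-1,k-1)`, `(L-k) C(A,L-k) = A C(A-1,L-k-1)`), shift `k = i + 1`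
(`Finset.sum_range_succ'`, `Finset.sum_range_succ`), and finish with
`hyper_total (A-1) (A-1) L'`; `(A-1)+(A-1) = 2*A-2`. -/
theorem hyper_mixed (A L : ℕ) (hA : 1 ≤ A) :
    ∑ k ∈ range (L + 1), (A.choose k : ℝ) * (A.choose (L - k) : ℝ) * ((k : ℝ) * ((L : ℝ) - k))
      = (A : ℝ) ^ 2 * ((2 * A - 2).choose (L - 2) : ℝ) * (if 2 ≤ L then 1 else 0) := by
  rcases L with _ | _ | L'
  · simp
  · simp [Finset.sum_range_succ]
  · have h2 : (2 : ℕ) ≤ L' + 1 + 1 := by omega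
    rw [if_pos h2, mul_one]
    rw [Finset.sum_range_succ, Finset.sum_range_succ']
    have e1 : ((L' + 1 + 1 : ℕ) : ℝ) - ((L' + 1 + 1 : ℕ) : ℝ) = 0 := sub_self _
    rw [e1]
    simp only [Nat.cast_zero, zero_mul, mul_zero, add_zero]
    have hsub : L' + 1 + 1 - 2 = L' := by omega
    rw [hsub]
    have hAA : 2 * A - 2 = (A - 1) + (A - 1) := by omega
    rw [hAA, ← hyper_total (A - 1) (A - 1) L', Finset.mul_sum]
    apply Finset.sum_congr rfl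
    intro i hi
    have hi' : i ≤ L' := by
      have := Finset.mem_range.mp hi
      omega
    have m1 := mul_choose_eq A (i + 1) hA (by omega)
    have m2 := mul_choose_eq A (L' + 1 + 1 - (i + 1)) hA (by omega)
    have s1 : i + 1 - 1 = i := by omega
    have s2 : L' + 1 + 1 - (i + 1) - 1 = L' - i := by omega
    rw [s1] at m1
    rw [s2] at m2
    have c2 : ((L' + 1 + 1 - (i + 1) : ℕ) : ℝ) = ((L' + 1 + 1 : ℕ) : ℝ) - ((i + 1 : ℕ) : ℝ) := by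
      rw [Nat.cast_sub (by omega)]
    rw [c2] at m2
    calc (A.choose (i + 1) : ℝ) * (A.choose (L' + 1 + 1 - (i + 1)) : ℝ)
          * (((i + 1 : ℕ) : ℝ) * (((L' + 1 + 1 : ℕ) : ℝ) - ((i + 1 : ℕ) : ℝ)))
        = (((i + 1 : ℕ) : ℝ) * (A.choose (i + 1) : ℝ))
          * ((((L' + 1 + 1 : ℕ) : ℝ) - ((i + 1 : ℕ) : ℝ))
              * (A.choose (L' + 1 + 1 - (i + 1)) : ℝ)) := by ring
      _ = ((A : ℝ) * ((A - 1).choose i : ℝ)) * ((A : ℝ) * ((A - 1).choose (L' - i) : ℝ)) := by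
          rw [m1, m2]
      _ = (A : ℝ) ^ 2 * (((A - 1).choose i : ℝ) * ((A - 1).choose (L' - i) : ℝ)) := by ring

/-- Variance: `(2A-1) ∑ C(A,k) C(A,L-k) (2k-L)^2 = C(2A,L) L (2A-L)`.
Sketch: `(2k-L)^2 = L^2 - 4 k (L-k)`, so the sum is `L^2 C(2A,L) - 4 A^2 C(2A-2,L-2) [2 ≤ L]`
(`hyper_total A A L`, `hyper_mixed`).  For `L ≥ 2`:
`L (L-1) C(2A,L) = 2A (2A-1) C(2A-2,L-2)` (`mul_choose_eq` twice), hence
`(2A-1) 4 A^2 C(2A-2,L-2) = 2 A L (L-1) C(2A,L)` and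
`(2A-1) L^2 - 2 A L (L-1) = L (2A - L)`.  The cases `L = 0, 1` are direct. -/
theorem hyper_var (A L : ℕ) (hA : 1 ≤ A) :
    (2 * (A : ℝ) - 1)
        * ∑ k ∈ range (L + 1), (A.choose k : ℝ) * (A.choose (L - k) : ℝ) * (2 * (k : ℝ) - L) ^ 2
      = ((2 * A).choose L : ℝ) * L * (2 * (A : ℝ) - L) := by
  have hsplit : ∑ k ∈ range (L + 1),
      (A.choose k : ℝ) * (A.choose (L - k) : ℝ) * (2 * (k : ℝ) - L) ^ 2
      = (L : ℝ) ^ 2 * ∑ k ∈ range (L + 1), (A.choose k : ℝ) * (A.choose (L - k) : ℝ)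
        - 4 * ∑ k ∈ range (L + 1),
            (A.choose k : ℝ) * (A.choose (L - k) : ℝ) * ((k : ℝ) * ((L : ℝ) - k)) := by
    rw [Finset.mul_sum, Finset.mul_sum, ← Finset.sum_sub_distrib]
    apply Finset.sum_congr rfl
    intro k _
    ring
  rw [hsplit, hyper_total A A L, hyper_mixed A L hA]
  have hAA : A + A = 2 * A := by omega
  rw [hAA]
  rcases L with _ | _ | L'
  · simp
  · have h2 : ¬ (2 : ℕ) ≤ 0 + 1 := by omega
    rw [if_neg h2]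
    simp
    ring
  · have h2 : (2 : ℕ) ≤ L' + 1 + 1 := by omega
    rw [if_pos h2, mul_one]
    have hsub : L' + 1 + 1 - 2 = L' := by omega
    rw [hsub]
    have m1 := mul_choose_eq (2 * A) (L' + 1 + 1) (by omega) (by omega)
    have m2 := mul_choose_eq (2 * A - 1) (L' + 1) (by omega) (by omega)
    have s1 : L' + 1 + 1 - 1 = L' + 1 := by omega
    have s2 : L' + 1 - 1 = L' := by omega
    have s3 : 2 * A - 1 - 1 = 2 * A - 2 := by omega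
    rw [s1] at m1
    rw [s2, s3] at m2
    have c1 : ((2 * A - 1 : ℕ) : ℝ) = 2 * (A : ℝ) - 1 := by
      rw [Nat.cast_sub (by omega)]
      push_cast
      ring
    have c0 : ((2 * A : ℕ) : ℝ) = 2 * (A : ℝ) := by push_cast; ring
    rw [c1] at m2
    rw [c0] at m1
    set X : ℝ := ((2 * A).choose (L' + 1 + 1) : ℝ) with hX
    set Y : ℝ := ((2 * A - 1).choose (L' + 1) : ℝ) with hY
    set Z : ℝ := ((2 * A - 2).choose L' : ℝ) with hZ
    have cL : ((L' + 1 + 1 : ℕ) : ℝ) = (L' : ℝ) + 2 := by push_cast; ring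
    have cL1 : ((L' + 1 : ℕ) : ℝ) = (L' : ℝ) + 1 := by push_cast; ring
    rw [cL] at m1 ⊢
    rw [cL1] at m2
    -- m1 : (L'+2) X = 2A Y ; m2 : (L'+1) Y = (2A-1) Z
    have key : (2 * (A : ℝ) - 1) * (4 * ((A : ℝ) ^ 2 * Z))
        = 2 * (A : ℝ) * (((L' : ℝ) + 2) * ((L' : ℝ) + 1)) * X := by
      calc (2 * (A : ℝ) - 1) * (4 * ((A : ℝ) ^ 2 * Z))
          = 4 * (A : ℝ) ^ 2 * ((2 * (A : ℝ) - 1) * Z) := by ring
        _ = 4 * (A : ℝ) ^ 2 * (((L' : ℝ) + 1) * Y) := by rw [m2]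
        _ = 2 * (A : ℝ) * ((L' : ℝ) + 1) * (2 * (A : ℝ) * Y) := by ring
        _ = 2 * (A : ℝ) * ((L' : ℝ) + 1) * (((L' : ℝ) + 2) * X) := by rw [m1]
        _ = 2 * (A : ℝ) * (((L' : ℝ) + 2) * ((L' : ℝ) + 1)) * X := by ring
    calc (2 * (A : ℝ) - 1) * (((L' : ℝ) + 2) ^ 2 * X - 4 * ((A : ℝ) ^ 2 * Z))
        = (2 * (A : ℝ) - 1) * ((L' : ℝ) + 2) ^ 2 * X
          - (2 * (A : ℝ) - 1) * (4 * ((A : ℝ) ^ 2 * Z)) := by ring
      _ = (2 * (A : ℝ) - 1) * ((L' : ℝ) + 2) ^ 2 * X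
          - 2 * (A : ℝ) * (((L' : ℝ) + 2) * ((L' : ℝ) + 1)) * X := by rw [key]
      _ = X * ((L' : ℝ) + 2) * (2 * (A : ℝ) - ((L' : ℝ) + 2)) := by ring

end Vale.Agent.P321
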