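import Mathlib

/-!
# A pointwise bound for `W ^ 2 / S`
-/

namespace Vale.Agent.P321

open Finset

/-- Pointwise bound.  Put `W = ∑ η d e`, `S = ∑ η e`, `V = ∑ η d^2`; `e` takes values in `{0,1}`.
Sketch: Cauchy-Schwarz gives `W^2 ≤ V * S` (`Finset.sum_mul_sq_le_sq_mul_sq` with
`√η * d` and `√η * e`, or `Finset.sum_sq_le_sum_mul_sum_of_sq_le_mul`; use `e^2 = e` and
`η d^2 e ≤ η d^2`...; precisely `(∑ (η d e))^2 ≤ (∑ η d^2) (∑ η e^2)`).  `S ≥ 0`, `V ≥ 0`.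
Case `S = 0`: the left side is `0` (division by zero) and the right side is nonnegative.
Case `S ≥ p0 / 2`: `W^2 / S ≤ (2 / p0) W^2`.
Case `0 < S < p0 / 2`: `W^2 / S ≤ V` and `(S - p0)^2 ≥ p0^2 / 4`, so `V ≤ (4 V / p0^2) (S - p0)^2`. -/
theorem ratio_pointwise (M : ℕ) (η d e : Fin M → ℝ) (hη : ∀ k, 0 ≤ η k)
    (he : ∀ k, e k = 0 ∨ e k = 1) (p0 : ℝ) (hp0 : 0 < p0) :
    (∑ k, η k * d k * e k) ^ 2 / (∑ k, η k * e k)
      ≤ (2 / p0) * (∑ k, η k * d k * e k) ^ 2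
        + (4 * ∑ k, η k * d k ^ 2) / p0 ^ 2 * (∑ k, η k * e k - p0) ^ 2 := by
  have he0 : ∀ k, 0 ≤ e k := by
    intro k
    rcases he k with h | h <;> rw [h] <;> norm_num
  have hS : 0 ≤ ∑ k, η k * e k := Finset.sum_nonneg (fun k _ => mul_nonneg (hη k) (he0 k))
  have hV : 0 ≤ ∑ k, η k * d k ^ 2 :=
    Finset.sum_nonneg (fun k _ => mul_nonneg (hη k) (sq_nonneg _))
  have hCS : (∑ k, η k * d k * e k) ^ 2 ≤ (∑ k, η k * d k ^ 2) * (∑ k, η k * e k) := by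
    apply Finset.sum_sq_le_sum_mul_sum_of_sq_le_mul
    · intro k _
      exact mul_nonneg (hη k) (sq_nonneg _)
    · intro k _
      exact mul_nonneg (hη k) (he0 k)
    · intro k _
      apply le_of_eq
      rcases he k with h | h <;> rw [h] <;> ring
  generalize (∑ k, η k * d k * e k) = W at hCS ⊢
  generalize (∑ k, η k * e k) = S at hS hCS ⊢
  generalize (∑ k, η k * d k ^ 2) = V at hV hCS ⊢
  have hW : 0 ≤ W ^ 2 := sq_nonneg W
  have hR1 : 0 ≤ (2 / p0) * W ^ 2 := by positivity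
  have hR2 : 0 ≤ (4 * V) / p0 ^ 2 * (S - p0) ^ 2 := by positivity
  rcases hS.eq_or_lt with h0 | hpos
  · rw [← h0]
    simp only [div_zero]
    have hR2' : 0 ≤ (4 * V) / p0 ^ 2 * ((0 : ℝ) - p0) ^ 2 := by positivity
    linarith
  · rcases le_or_gt (p0 / 2) S with hbig | hsmall
    · have h1 : W ^ 2 / S ≤ (2 / p0) * W ^ 2 := by
        rw [div_le_iff₀ hpos]
        have h2 : 1 ≤ 2 / p0 * S := by
          rw [div_mul_eq_mul_div, le_div_iff₀ hp0]
          linarith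
        nlinarith
      linarith
    · have h1 : W ^ 2 / S ≤ V := by
        rw [div_le_iff₀ hpos]
        exact hCS
      have h2 : V ≤ (4 * V) / p0 ^ 2 * (S - p0) ^ 2 := by
        have h3 : p0 ^ 2 / 4 ≤ (S - p0) ^ 2 := by nlinarith
        have h4 : (4 * V) / p0 ^ 2 * (p0 ^ 2 / 4) = V := by
          field_simp
        calc V = (4 * V) / p0 ^ 2 * (p0 ^ 2 / 4) := h4.symm
          _ ≤ (4 * V) / p0 ^ 2 * (S - p0) ^ 2 :=
            mul_le_mul_of_nonneg_left h3 (by positivity)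
      linarith

end Vale.Agent.P321
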