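import Vale.Agent.P321.Mom2
import Vale.Agent.P321.Mom3

/-!
# The expected ratio `W ^ 2 / S`
-/

namespace Vale.Agent.P321

open Finset

/-- Main moment bound.  Under the product probability weight `∏ π (z j)` let
`e k = 1[z k = t0]`, `W = ∑ η d e`, `S = ∑ η e`, `p0 = π t0`, `V = ∑ η d^2`.  If `η` is a
probability vector bounded by `mx` and `∑ η d = 0`, then `E[W^2 / S] ≤ (2 + 4 / p0) mx V`.
Sketch: by `ratio_pointwise` (multiply by `∏ π ≥ 0` and sum),
`E[W^2/S] ≤ (2/p0) E[W^2] + (4 V / p0^2) E[(S - p0)^2]`.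
Since `∑ η d = 0`, `W = ∑ (η d) (e - p0)`, and since `∑ η = 1`, `S - p0 = ∑ η (e - p0)`.
By `indep_var`: `E[W^2] = p0 (1-p0) ∑ (η d)^2 ≤ p0 mx V` and
`E[(S-p0)^2] = p0 (1-p0) ∑ η^2 ≤ p0 mx`  (`η^2 ≤ mx η`, `0 ≤ 1 - p0 ≤ 1`; note `p0 ≤ 1` by
`Finset.single_le_sum`, and `mx ≥ 0` is not needed separately: `(η k)^2 ≤ mx * η k`). -/
theorem ratio_bound {τ : Type*} [Fintype τ] [DecidableEq τ] (π : τ → ℝ) (hπ : ∀ t, 0 ≤ π t)
    (h1 : ∑ t, π t = 1) (t0 : τ) (hp0 : 0 < π t0) (M : ℕ) (η d : Fin M → ℝ)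
    (hη : ∀ k, 0 ≤ η k) (hη1 : ∑ k, η k = 1) (mx : ℝ) (hmx : ∀ k, η k ≤ mx)
    (hd : ∑ k, η k * d k = 0) :
    ∑ z : Fin M → τ, (∏ j, π (z j))
        * ((∑ k, η k * d k * (if z k = t0 then (1 : ℝ) else 0)) ^ 2
            / (∑ k, η k * (if z k = t0 then (1 : ℝ) else 0)))
      ≤ (2 + 4 / π t0) * mx * ∑ k, η k * d k ^ 2 := by
  set p0 : ℝ := π t0 with hp0def
  set V : ℝ := ∑ k, η k * d k ^ 2 with hVdef
  have hV : 0 ≤ V := Finset.sum_nonneg (fun k _ => mul_nonneg (hη k) (sq_nonneg _))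
  have hp1 : p0 ≤ 1 := by
    rw [← h1]
    exact Finset.single_le_sum (f := π) (fun t _ => hπ t) (Finset.mem_univ t0)
  -- rewriting W and S - p0 as centred sums
  have hW : ∀ z : Fin M → τ, (∑ k, η k * d k * (if z k = t0 then (1 : ℝ) else 0))
      = ∑ k, (η k * d k) * ((if z k = t0 then (1 : ℝ) else 0) - p0) := by
    intro z
    have : ∀ k, (η k * d k) * ((if z k = t0 then (1 : ℝ) else 0) - p0)
        = η k * d k * (if z k = t0 then (1 : ℝ) else 0) - (η k * d k) * p0 := by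
      intro k
      ring
    simp_rw [this]
    rw [Finset.sum_sub_distrib, ← Finset.sum_mul, hd]
    ring
  have hS : ∀ z : Fin M → τ, (∑ k, η k * (if z k = t0 then (1 : ℝ) else 0)) - p0
      = ∑ k, η k * ((if z k = t0 then (1 : ℝ) else 0) - p0) := by
    intro z
    have : ∀ k, η k * ((if z k = t0 then (1 : ℝ) else 0) - p0)
        = η k * (if z k = t0 then (1 : ℝ) else 0) - η k * p0 := by
      intro k
      ring
    simp_rw [this]
    rw [Finset.sum_sub_distrib, ← Finset.sum_mul, hη1]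
    ring
  -- pointwise bound
  have hpt : ∀ z : Fin M → τ, (∏ j, π (z j))
        * ((∑ k, η k * d k * (if z k = t0 then (1 : ℝ) else 0)) ^ 2
            / (∑ k, η k * (if z k = t0 then (1 : ℝ) else 0)))
      ≤ (2 / p0) * ((∏ j, π (z j))
            * (∑ k, (η k * d k) * ((if z k = t0 then (1 : ℝ) else 0) - p0)) ^ 2)
        + (4 * V) / p0 ^ 2 * ((∏ j, π (z j))
            * (∑ k, η k * ((if z k = t0 then (1 : ℝ) else 0) - p0)) ^ 2) := by
    intro z
    have hprod : 0 ≤ ∏ j, π (z j) := Finset.prod_nonneg (fun j _ => hπ _)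
    have hr := ratio_pointwise M η d (fun k => if z k = t0 then (1 : ℝ) else 0) hη
      (by
        intro k
        by_cases h : z k = t0
        · right
          simp [h]
        · left
          simp [h]) p0 hp0
    rw [hS z] at hr
    have hr2 := mul_le_mul_of_nonneg_left hr hprod
    rw [← hW z]
    calc _ ≤ _ := hr2
      _ = _ := by ring
  have hsum := Finset.sum_le_sum (fun z (_ : z ∈ (Finset.univ : Finset (Fin M → τ))) => hpt z)
  rw [Finset.sum_add_distrib, ← Finset.mul_sum, ← Finset.mul_sum,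
    indep_var π h1 t0 M (fun k => η k * d k), indep_var π h1 t0 M η] at hsum
  -- bounds on the two sums of squares
  have hA0 : 0 ≤ ∑ k, (η k * d k) ^ 2 := Finset.sum_nonneg (fun k _ => sq_nonneg _)
  have hB0 : 0 ≤ ∑ k, η k ^ 2 := Finset.sum_nonneg (fun k _ => sq_nonneg _)
  have hA : ∑ k, (η k * d k) ^ 2 ≤ mx * V := by
    rw [hVdef, Finset.mul_sum]
    refine Finset.sum_le_sum (fun k _ => ?_)
    have h2 : 0 ≤ η k * d k ^ 2 := mul_nonneg (hη k) (sq_nonneg _)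
    have h3 := mul_le_mul_of_nonneg_right (hmx k) h2
    calc (η k * d k) ^ 2 = η k * (η k * d k ^ 2) := by ring
      _ ≤ mx * (η k * d k ^ 2) := h3
  have hB : ∑ k, η k ^ 2 ≤ mx := by
    have : ∑ k, η k ^ 2 ≤ ∑ k, mx * η k := by
      refine Finset.sum_le_sum (fun k _ => ?_)
      have h3 := mul_le_mul_of_nonneg_right (hmx k) (hη k)
      calc η k ^ 2 = η k * η k := by ring
        _ ≤ mx * η k := h3
    rw [← Finset.mul_sum, hη1, mul_one] at this
    exact this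
  refine le_trans hsum ?_
  have hq0 : 0 ≤ 1 - p0 := by linarith
  have hq1 : 1 - p0 ≤ 1 := by linarith
  have e1 : 2 / p0 * (p0 * (1 - p0) * ∑ k, (η k * d k) ^ 2)
      = 2 * ((1 - p0) * ∑ k, (η k * d k) ^ 2) := by
    field_simp
  have e2 : 4 * V / p0 ^ 2 * (p0 * (1 - p0) * ∑ k, η k ^ 2)
      = (4 * V / p0) * ((1 - p0) * ∑ k, η k ^ 2) := by
    field_simp
  rw [e1, e2]
  have f1 : (1 - p0) * ∑ k, (η k * d k) ^ 2 ≤ mx * V := by
    calc (1 - p0) * ∑ k, (η k * d k) ^ 2 ≤ 1 * ∑ k, (η k * d k) ^ 2 :=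
          mul_le_mul_of_nonneg_right hq1 hA0
      _ = ∑ k, (η k * d k) ^ 2 := one_mul _
      _ ≤ mx * V := hA
  have f2 : (1 - p0) * ∑ k, η k ^ 2 ≤ mx := by
    calc (1 - p0) * ∑ k, η k ^ 2 ≤ 1 * ∑ k, η k ^ 2 :=
          mul_le_mul_of_nonneg_right hq1 hB0
      _ = ∑ k, η k ^ 2 := one_mul _
      _ ≤ mx := hB
  have hc : 0 ≤ 4 * V / p0 := by positivity
  have f3 := mul_le_mul_of_nonneg_left f2 hc
  have e3 : (2 + 4 / p0) * mx * V = 2 * (mx * V) + 4 * V / p0 * mx := by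
    field_simp
  rw [e3]
  linarith

end Vale.Agent.P321
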