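import Vale.Agent.P321.Del1
import Vale.Agent.P321.Hyp2
import Vale.Agent.P321.Mom4

/-!
# The discrimination for a fixed number of tokens
-/

namespace Vale.Agent.P321

open Finset

/-- Bound for a fixed number `L + 1` of tokens.
Sketch.  Put `θ = 1 - q^2 > 0`, `T = C(2A,L) > 0` (as `L ≤ 2A`), `w k = C(A,k) C(A,L-k)`,
`η k = w k / T`, `d k = 2k - L` (`k : Fin (L+1)`), `π t = nu q t / θ`, `t0 = Tok.z`, and
`e k = 1[z k = Tok.z]`, `W = ∑ η d e`, `S = ∑ η e`.
* `∑ π = 1` (`nu_sum`), `π ≥ 0`, `π t0 = (1-q) q / θ > 0`, so `2 + 4 / π t0 = c0 q`.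
* `∑ η = 1` (`hyper_total A A L`, `A + A = 2 * A`, `Fin.sum_univ_eq_sum_range`),
  `∑ η d = 0` (`hyper_mean`), `η k ≤ mx / T`,
  `∑ η d^2 = L (2A-L) / (2A-1)` (`hyper_var`).
* `∏ nu q (z j) = θ^(L+1) ∏ π (z j)` (`Finset.prod_mul_distrib`/`Finset.prod_div_distrib`,
  `Finset.prod_const`, `Finset.card_univ`, `Fintype.card_fin`).
* By `Dw_sub`, `Dw_add`: `(D₋ - D₊)^2 / (D₋ + D₊) = (T W / A)^2 / ((2A-L) T S / A)
  = T / (A (2A-L)) * (W^2 / S)`  (valid also for `S = 0`; `2A - L > 0`, `A > 0`, `T > 0`).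
* `ratio_bound π .. (M := L+1) η d .. (mx / T)`:
  `∑ z, (∏ π) (W^2 / S) ≤ c0 q * (mx / T) * (L (2A-L) / (2A-1))`.
Multiply: `θ^(L+1) * T / (A (2A-L)) * c0 q * (mx / T) * L (2A-L) / (2A-1)
  = θ^(L+1) c0 q mx L / (A (2A-1))`. -/
theorem token_ratio (q : ℝ) (hq0 : 0 < q) (hq1 : q < 1) (A L : ℕ) (hA : 1 ≤ A)
    (hL : L ≤ 2 * A - 1) (mx : ℝ)
    (hmx : ∀ k, k ≤ L → (A.choose k : ℝ) * (A.choose (L - k) : ℝ) ≤ mx) :
    ∑ z : Fin (L + 1) → Tok, (∏ j, nu q (z j))
        * ((Dw (A - 1) A L z - Dw A (A - 1) L z) ^ 2 / (Dw (A - 1) A L z + Dw A (A - 1) L z))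
      ≤ (1 - q ^ 2) ^ (L + 1) * c0 q * mx * ((L : ℝ) / (A * (2 * A - 1))) := by
  set θ : ℝ := 1 - q ^ 2 with hθ
  have hθpos : 0 < θ := by rw [hθ]; nlinarith
  have hAr : (1 : ℝ) ≤ A := by exact_mod_cast hA
  have hApos : (0 : ℝ) < A := by linarith
  have hL2 : L ≤ 2 * A := by omega
  set T : ℝ := ((2 * A).choose L : ℝ) with hT
  have hTpos : 0 < T := by rw [hT]; exact_mod_cast Nat.choose_pos hL2
  have hLr : (L : ℝ) ≤ 2 * A - 1 := by
    have h : (L : ℝ) + 1 ≤ 2 * A := by exact_mod_cast (by omega : L + 1 ≤ 2 * A)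
    linarith
  have hB : (0 : ℝ) < 2 * A - L := by linarith
  have hC : (0 : ℝ) < 2 * A - 1 := by linarith
  set w : Fin (L + 1) → ℝ := fun k => (A.choose k : ℝ) * (A.choose (L - k) : ℝ) with hw
  set η : Fin (L + 1) → ℝ := fun k => w k / T with hη
  set d : Fin (L + 1) → ℝ := fun k => 2 * ((k : ℕ) : ℝ) - L with hd
  set π : Tok → ℝ := fun t => nu q t / θ with hπ
  have hπ0 : ∀ t, 0 ≤ π t := fun t => div_nonneg (nu_nonneg q hq0.le hq1.le t) hθpos.le
  have hπ1 : ∑ t, π t = 1 := by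
    simp only [hπ]
    rw [← Finset.sum_div, nu_sum]
    exact div_self hθpos.ne'
  have hπz : π Tok.z = (1 - q) * q / θ := rfl
  have hnz : 0 < (1 - q) * q := mul_pos (by linarith) hq0
  have hpz : 0 < π Tok.z := by rw [hπz]; exact div_pos hnz hθpos
  have hw0 : ∀ k, 0 ≤ w k := fun k => by simp only [hw]; positivity
  have hη0 : ∀ k, 0 ≤ η k := fun k => div_nonneg (hw0 k) hTpos.le
  have hsumw : ∑ k, w k = T := by
    have h := Fin.sum_univ_eq_sum_range
      (fun k => (A.choose k : ℝ) * (A.choose (L - k) : ℝ)) (L + 1)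
    simp only [hw]
    rw [h, hyper_total A A L, ← two_mul]
  have hη1 : ∑ k, η k = 1 := by
    simp only [hη]
    rw [← Finset.sum_div, hsumw]
    exact div_self hTpos.ne'
  have hηmx : ∀ k, η k ≤ mx / T := fun k =>
    div_le_div_of_nonneg_right (hmx k (by have := k.2; omega)) hTpos.le
  have hsumwd : ∑ k, w k * d k = 0 := by
    have h := Fin.sum_univ_eq_sum_range
      (fun k => (A.choose k : ℝ) * (A.choose (L - k) : ℝ) * (2 * (k : ℝ) - L)) (L + 1)
    simp only [hw, hd]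
    rw [h, hyper_mean A L]
  have hηd : ∑ k, η k * d k = 0 := by
    have : ∀ k, η k * d k = w k * d k / T := fun k => by simp only [hη]; ring
    simp only [this]
    rw [← Finset.sum_div, hsumwd, zero_div]
  have hsumwd2 : (2 * (A : ℝ) - 1) * ∑ k, w k * d k ^ 2 = T * L * (2 * (A : ℝ) - L) := by
    have h := Fin.sum_univ_eq_sum_range
      (fun k => (A.choose k : ℝ) * (A.choose (L - k) : ℝ) * (2 * (k : ℝ) - L) ^ 2) (L + 1)
    simp only [hw, hd]
    rw [h, hyper_var A L hA]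
  have hvar : ∑ k, η k * d k ^ 2 = L * (2 * (A : ℝ) - L) / (2 * (A : ℝ) - 1) := by
    have : ∀ k, η k * d k ^ 2 = w k * d k ^ 2 / T := fun k => by simp only [hη]; ring
    simp only [this]
    rw [← Finset.sum_div, eq_div_iff hC.ne', div_mul_eq_mul_div, div_eq_iff hTpos.ne']
    linarith [hsumwd2]
  have key := ratio_bound π hπ0 hπ1 Tok.z hpz (L + 1) η d hη0 hη1 (mx / T) hηmx hηd
  have hc0 : 2 + 4 / π Tok.z = c0 q := by
    rw [hπz, c0, div_div_eq_mul_div]
  rw [hc0, hvar] at key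
  have hterm : ∀ z : Fin (L + 1) → Tok, (∏ j, nu q (z j))
        * ((Dw (A - 1) A L z - Dw A (A - 1) L z) ^ 2 / (Dw (A - 1) A L z + Dw A (A - 1) L z))
      = (θ ^ (L + 1) * (T / (A * (2 * (A : ℝ) - L)))) * ((∏ j, π (z j))
        * ((∑ k, η k * d k * (if z k = Tok.z then (1 : ℝ) else 0)) ^ 2
            / (∑ k, η k * (if z k = Tok.z then (1 : ℝ) else 0)))) := by
    intro z
    have hprod : ∏ j, nu q (z j) = θ ^ (L + 1) * ∏ j, π (z j) := by
      simp only [hπ]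
      rw [Finset.prod_div_distrib, Finset.prod_const, Finset.card_univ, Fintype.card_fin]
      field_simp
    have hW : ∑ k, η k * d k * (if z k = Tok.z then (1 : ℝ) else 0)
        = (∑ k, w k * d k * (if z k = Tok.z then (1 : ℝ) else 0)) / T := by
      rw [Finset.sum_div]
      refine Finset.sum_congr rfl (fun k _ => ?_)
      simp only [hη]; ring
    have hS : ∑ k, η k * (if z k = Tok.z then (1 : ℝ) else 0)
        = (∑ k, w k * (if z k = Tok.z then (1 : ℝ) else 0)) / T := by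
      rw [Finset.sum_div]
      refine Finset.sum_congr rfl (fun k _ => ?_)
      simp only [hη]; ring
    rw [Dw_add A L hA z, Dw_sub A L hA z, hprod, hW, hS]
    set W' : ℝ := ∑ k, w k * d k * (if z k = Tok.z then (1 : ℝ) else 0) with hW'
    set S' : ℝ := ∑ k, w k * (if z k = Tok.z then (1 : ℝ) else 0) with hS'
    rcases eq_or_ne S' 0 with h0 | h0
    · rw [h0]; simp
    · field_simp
  simp only [hterm]
  rw [← Finset.mul_sum]
  have hcoef : 0 ≤ θ ^ (L + 1) * (T / (A * (2 * (A : ℝ) - L))) := by positivity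
  calc _ ≤ θ ^ (L + 1) * (T / (A * (2 * (A : ℝ) - L)))
        * (c0 q * (mx / T) * (L * (2 * (A : ℝ) - L) / (2 * (A : ℝ) - 1))) :=
        mul_le_mul_of_nonneg_left key hcoef
    _ = θ ^ (L + 1) * c0 q * mx * ((L : ℝ) / (A * (2 * A - 1))) := by
        have hB' := hB.ne'
        have hC' := hC.ne'
        have hA' := hApos.ne'
        have hT' := hTpos.ne'
        generalize (2 * (A : ℝ) - L) = B at hB' ⊢
        generalize (2 * (A : ℝ) - 1) = C at hC' ⊢
        field_simp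

end Vale.Agent.P321
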