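import Vale.Agent.P321.Hyp1

/-!
# Discrete derivative of the symmetric hypergeometric weights
-/

namespace Vale.Agent.P321

open Finset

/-- With `w j = C(A,j) C(A,L-j)`:
`(A+1) (w j - w (j-1)) = (L+1-2j) C(A+1,j) C(A+1,L+1-j)` for `1 ≤ j ≤ L`.
Sketch: put `X = C(A+1,j)`, `Y = C(A+1,L+1-j)`.  By `choose_pred_mul (A+1)` and
`mul_choose_eq (A+1)`:
`(A+1) C(A,j) = (A+1-j) X`, `(A+1) C(A,j-1) = j X`,
`(A+1) C(A,L-j) = (L+1-j) Y`  (as `L - j = (L+1-j) - 1`),
`(A+1) C(A,L-(j-1)) = (A+1) C(A,L+1-j) = (A+1-(L+1-j)) Y`.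
Multiply the claim by `A + 1 ≠ 0`:
`(A+1-j)(L+1-j) - j (A-L+j) = (A+1)(L+1-2j)`. -/
theorem hyper_diff (A L j : ℕ) (hj1 : 1 ≤ j) (hjL : j ≤ L) :
    ((A : ℝ) + 1) * ((A.choose j : ℝ) * (A.choose (L - j) : ℝ)
        - (A.choose (j - 1) : ℝ) * (A.choose (L - (j - 1)) : ℝ))
      = ((L : ℝ) + 1 - 2 * j) * (((A + 1).choose j : ℝ) * ((A + 1).choose (L + 1 - j) : ℝ)) := by
  have hA : (1 : ℕ) ≤ A + 1 := by omega
  have h1 := choose_pred_mul (A + 1) j hA
  have h2 := mul_choose_eq (A + 1) j hA hj1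
  have h3 := mul_choose_eq (A + 1) (L + 1 - j) hA (by omega)
  have h4 := choose_pred_mul (A + 1) (L + 1 - j) hA
  have e1 : A + 1 - 1 = A := by omega
  have e2 : L + 1 - j - 1 = L - j := by omega
  have e3 : L - (j - 1) = L + 1 - j := by omega
  have c1 : ((L + 1 - j : ℕ) : ℝ) = (L : ℝ) + 1 - j := by
    rw [Nat.cast_sub (by omega)]; push_cast; ring
  rw [e1] at h1 h2 h3 h4
  rw [e2] at h3
  rw [c1] at h3 h4
  rw [e3]
  push_cast at h1 h2 h3 h4
  set X : ℝ := ((A + 1).choose j : ℝ)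
  set Y : ℝ := ((A + 1).choose (L + 1 - j) : ℝ)
  set a : ℝ := (A.choose j : ℝ)
  set b : ℝ := (A.choose (L - j) : ℝ)
  set c : ℝ := (A.choose (j - 1) : ℝ)
  set d : ℝ := (A.choose (L + 1 - j) : ℝ)
  have hne : ((A : ℝ) + 1) ≠ 0 := by positivity
  apply mul_left_cancel₀ hne
  have : ((A : ℝ) + 1) * (((A : ℝ) + 1) * (a * b - c * d))
      = (((A : ℝ) + 1) * a) * (((A : ℝ) + 1) * b) - (((A : ℝ) + 1) * c) * (((A : ℝ) + 1) * d) := by
    ring
  rw [this, h1, ← h3, ← h2, h4]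
  ring

/-- the discrete derivative weights -/
private noncomputable def gg (A L j : ℕ) : ℝ :=
  ((L : ℝ) + 1 - 2 * j) * (((A + 1).choose j : ℝ) * ((A + 1).choose (L + 1 - j) : ℝ))

private theorem end_id (A L : ℕ) :
    ((A : ℝ) + 1) * (A.choose L : ℝ) = ((L : ℝ) + 1) * ((A + 1).choose (L + 1) : ℝ) := by
  have h := mul_choose_eq (A + 1) (L + 1) (by omega) (by omega)
  have e1 : A + 1 - 1 = A := by omega
  have e2 : L + 1 - 1 = L := by omega
  rw [e1, e2] at h
  push_cast at h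
  linarith

private theorem tele (A L k : ℕ) (hk : k ≤ L) :
    ((A : ℝ) + 1) * ((A.choose k : ℝ) * (A.choose (L - k) : ℝ))
      = ∑ j ∈ range (k + 1), gg A L j := by
  induction k with
  | zero =>
    simp only [zero_add, Finset.sum_range_one, gg]
    have := end_id A L
    simp only [Nat.choose_zero_right, Nat.cast_one, one_mul, Nat.sub_zero, Nat.cast_zero,
      mul_zero, sub_zero]
    exact this
  | succ k ih =>
    rw [Finset.sum_range_succ, ← ih (by omega)]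
    have hd := hyper_diff A L (k + 1) (by omega) hk
    have e : k + 1 - 1 = k := by omega
    rw [e] at hd
    unfold gg
    linarith

/-- The value of `w` at `k` is at most half the total variation of `w` (extended by zero).
Sketch: with `g j = (L+1-2j) C(A+1,j) C(A+1,L+1-j)` one has also at the two ends
`(A+1) w 0 = g 0` (i.e. `(A+1) C(A,L) = (L+1) C(A+1,L+1)`) and `-(A+1) w L = g (L+1)`.
Telescoping (`Finset.sum_range_succ'`, induction on `k`):
`(A+1) w k = ∑_{j ≤ k} g j` and `(A+1) w k = -∑_{k < j ≤ L+1} g j`.  Hence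
`2 (A+1) w k = ∑_{j ≤ k} g j - ∑_{k<j≤L+1} g j ≤ ∑_{j ≤ L+1} |g j|`, and
`|g j| = |L+1-2j| C C` (`abs_mul`, binomials are nonnegative). -/
theorem hyper_two_mul_le (A L k : ℕ) (hk : k ≤ L) :
    2 * ((A : ℝ) + 1) * ((A.choose k : ℝ) * (A.choose (L - k) : ℝ))
      ≤ ∑ j ∈ range (L + 2), |(L : ℝ) + 1 - 2 * j|
          * (((A + 1).choose j : ℝ) * ((A + 1).choose (L + 1 - j) : ℝ)) := by
  have habs : ∀ j : ℕ, |(L : ℝ) + 1 - 2 * j|
      * (((A + 1).choose j : ℝ) * ((A + 1).choose (L + 1 - j) : ℝ)) = |gg A L j| := by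
    intro j
    unfold gg
    rw [abs_mul, abs_of_nonneg (by positivity :
      (0 : ℝ) ≤ ((A + 1).choose j : ℝ) * ((A + 1).choose (L + 1 - j) : ℝ))]
  simp only [habs]
  have htot : ∑ j ∈ range (L + 2), gg A L j = 0 := by
    rw [Finset.sum_range_succ, ← tele A L L le_rfl]
    have := end_id A L
    unfold gg
    simp only [Nat.sub_self, Nat.choose_zero_right, Nat.cast_one, mul_one]
    push_cast
    nlinarith [this]
  have hsplit := Finset.sum_range_add_sum_Ico (fun j => gg A L j) (show k + 1 ≤ L + 2 by omega)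
  have hsplit' := Finset.sum_range_add_sum_Ico (fun j => |gg A L j|) (show k + 1 ≤ L + 2 by omega)
  have h1 := tele A L k hk
  have b1 : ∑ j ∈ range (k + 1), gg A L j ≤ ∑ j ∈ range (k + 1), |gg A L j| :=
    Finset.sum_le_sum fun j _ => le_abs_self _
  have b2 : -∑ j ∈ Ico (k + 1) (L + 2), gg A L j ≤ ∑ j ∈ Ico (k + 1) (L + 2), |gg A L j| := by
    rw [← Finset.sum_neg_distrib]
    exact Finset.sum_le_sum fun j _ => neg_le_abs _
  rw [← hsplit']
  linarith

end Vale.Agent.P321
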