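import Vale.Agent.P321.Hyp2
import Vale.Agent.P321.Hyp3

/-!
# Maximum of the symmetric hypergeometric weights
-/

namespace Vale.Agent.P321

open Finset

/-- Weighted Cauchy-Schwarz. -/
private theorem weighted_cs (s : Finset ℕ) (w a : ℕ → ℝ) (hw : ∀ j, 0 ≤ w j) :
    (∑ j ∈ s, |a j| * w j) ^ 2 ≤ (∑ j ∈ s, w j) * (∑ j ∈ s, w j * (a j) ^ 2) := by
  have h := Finset.sum_mul_sq_le_sq_mul_sq s (fun j => Real.sqrt (w j))
    (fun j => Real.sqrt (w j) * |a j|)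
  have e1 : ∑ j ∈ s, Real.sqrt (w j) * (Real.sqrt (w j) * |a j|) = ∑ j ∈ s, |a j| * w j := by
    apply Finset.sum_congr rfl
    intro j _
    rw [← mul_assoc, Real.mul_self_sqrt (hw j), mul_comm]
  have e2 : ∑ j ∈ s, Real.sqrt (w j) ^ 2 = ∑ j ∈ s, w j := by
    apply Finset.sum_congr rfl
    intro j _
    rw [Real.sq_sqrt (hw j)]
  have e3 : ∑ j ∈ s, (Real.sqrt (w j) * |a j|) ^ 2 = ∑ j ∈ s, w j * (a j) ^ 2 := by
    apply Finset.sum_congr rfl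
    intro j _
    rw [mul_pow, Real.sq_sqrt (hw j), sq_abs]
  rw [e1, e2, e3] at h
  exact h

/-- `C(A,k) C(A,L-k) ≤ C(2A,L) sqrt((2A+1) / ((L+1)(2A+1-L)))`.
Sketch: put `A' = A + 1`, `L' = L + 1`, `w' j = C(A',j) C(A',L'-j)`, `T = C(2A',L')`.
By `hyper_two_mul_le`, `2 (A+1) w k ≤ ∑_{j ≤ L'} |L' - 2j| w' j`.  Cauchy-Schwarz
(`Finset.sum_mul_sq_le_sq_mul_sq` with `√(w' j)` and `√(w' j) |L'-2j|`, or
`Finset.inner_mul_le_norm_mul_norm`):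
`(∑ |L'-2j| w' j)^2 ≤ (∑ w' j) (∑ w' j (2j-L')^2) = T * T L' (2A'-L') / (2A'-1)`
(`hyper_total A' A' L'`, `hyper_var A' L'`).  So
`4 (A+1)^2 (w k)^2 ≤ T^2 (L+1) (2A+1-L) / (2A+1)`.  By `choose_two_step`,
`T (L+1) (2A+1-L) = C(2A,L) (2A+2) (2A+1)`, so
`T^2 (L+1)(2A+1-L)/(2A+1) = C(2A,L)^2 (2A+2)^2 (2A+1) / ((L+1)(2A+1-L))`, i.e.
`(w k)^2 ≤ C(2A,L)^2 (2A+1)/((L+1)(2A+1-L))`.  Take square roots (`Real.le_sqrt`,
`Real.sqrt_mul_self`, `abs_le_of_sq_le_sq`...), e.g. via `Real.le_sqrt` after writing the right side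
as `√(C^2 * ratio)`. -/
theorem hyper_max (A L k : ℕ) (hk : k ≤ L) (hL : L ≤ 2 * A) :
    (A.choose k : ℝ) * (A.choose (L - k) : ℝ)
      ≤ ((2 * A).choose L : ℝ)
          * Real.sqrt ((2 * (A : ℝ) + 1) / (((L : ℝ) + 1) * (2 * (A : ℝ) + 1 - L))) := by
  have hLr : (L : ℝ) ≤ 2 * A := by exact_mod_cast hL
  have hA0 : (0 : ℝ) ≤ A := Nat.cast_nonneg A
  have hL0 : (0 : ℝ) ≤ L := Nat.cast_nonneg L
  obtain ⟨w, hw⟩ : ∃ w : ℝ, w = (A.choose k : ℝ) * (A.choose (L - k) : ℝ) := ⟨_, rfl⟩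
  obtain ⟨c, hc⟩ : ∃ c : ℝ, c = ((2 * A).choose L : ℝ) := ⟨_, rfl⟩
  obtain ⟨T, hT⟩ : ∃ T : ℝ, T = ((2 * (A + 1)).choose (L + 1) : ℝ) := ⟨_, rfl⟩
  obtain ⟨D, hD⟩ : ∃ D : ℝ, D = ((L : ℝ) + 1) * (2 * (A : ℝ) + 1 - L) := ⟨_, rfl⟩
  have hw0 : 0 ≤ w := by rw [hw]; positivity
  have hc0 : 0 ≤ c := by rw [hc]; positivity
  have hT0 : 0 ≤ T := by rw [hT]; positivity
  have hDpos : 0 < D := by
    rw [hD]
    apply mul_pos
    · linarith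
    · linarith
  have hw'0 : ∀ j : ℕ, 0 ≤ ((A + 1).choose j : ℝ) * ((A + 1).choose (L + 1 - j) : ℝ) :=
    fun j => by positivity
  have h1 := hyper_two_mul_le A L k hk
  rw [← hw] at h1
  have htot : ∑ j ∈ range (L + 2),
      ((A + 1).choose j : ℝ) * ((A + 1).choose (L + 1 - j) : ℝ) = T := by
    have h := hyper_total (A + 1) (A + 1) (L + 1)
    rw [show (A + 1) + (A + 1) = 2 * (A + 1) by ring] at h
    rw [hT]
    exact h
  have hvar : (2 * (A : ℝ) + 1) * ∑ j ∈ range (L + 2),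
      ((A + 1).choose j : ℝ) * ((A + 1).choose (L + 1 - j) : ℝ) * ((L : ℝ) + 1 - 2 * j) ^ 2
        = T * D := by
    have h := hyper_var (A + 1) (L + 1) (by omega)
    rw [← hT] at h
    push_cast at h
    have e : ∑ j ∈ range (L + 2),
        ((A + 1).choose j : ℝ) * ((A + 1).choose (L + 1 - j) : ℝ) * ((L : ℝ) + 1 - 2 * j) ^ 2
        = ∑ j ∈ range (L + 1 + 1),
        ((A + 1).choose j : ℝ) * ((A + 1).choose (L + 1 - j) : ℝ) * (2 * (j : ℝ) - (L + 1)) ^ 2 := by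
      apply Finset.sum_congr rfl
      intro j _
      ring
    rw [e, hD]
    have e2 : (2 * ((A : ℝ) + 1) - 1) = 2 * (A : ℝ) + 1 := by ring
    rw [e2] at h
    rw [h]
    ring
  have hstep : T * D = c * ((2 * (A : ℝ) + 2) * (2 * A + 1)) := by
    rw [hT, hD, hc]
    exact choose_two_step A L hL
  have hcs := weighted_cs (range (L + 2)) (fun j => ((A + 1).choose j : ℝ)
    * ((A + 1).choose (L + 1 - j) : ℝ)) (fun j => (L : ℝ) + 1 - 2 * j) hw'0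
  rw [htot] at hcs
  obtain ⟨V, hV⟩ : ∃ V : ℝ, V = ∑ j ∈ range (L + 2),
      ((A + 1).choose j : ℝ) * ((A + 1).choose (L + 1 - j) : ℝ) * ((L : ℝ) + 1 - 2 * j) ^ 2 :=
    ⟨_, rfl⟩
  rw [← hV] at hcs hvar
  obtain ⟨Sg, hSg⟩ : ∃ Sg : ℝ, Sg = ∑ j ∈ range (L + 2), |(L : ℝ) + 1 - 2 * j|
          * (((A + 1).choose j : ℝ) * ((A + 1).choose (L + 1 - j) : ℝ)) := ⟨_, rfl⟩
  rw [← hSg] at hcs h1
  -- V = c (2A+2)
  have hVc : V = c * (2 * (A : ℝ) + 2) := by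
    have h2 : (2 * (A : ℝ) + 1) * V = (2 * (A : ℝ) + 1) * (c * (2 * (A : ℝ) + 2)) := by
      rw [hvar, hstep]; ring
    have hne : (2 * (A : ℝ) + 1) ≠ 0 := by positivity
    exact mul_left_cancel₀ hne h2
  have hsq : (2 * ((A : ℝ) + 1) * w) ^ 2 ≤ T * V := by
    have hl0 : 0 ≤ 2 * ((A : ℝ) + 1) * w := by positivity
    calc (2 * ((A : ℝ) + 1) * w) ^ 2 ≤ Sg ^ 2 := by
          apply pow_le_pow_left₀ hl0 h1
      _ ≤ T * V := hcs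
  -- multiply by D
  have hkey : w ^ 2 * D ≤ c ^ 2 * (2 * (A : ℝ) + 1) := by
    have h3 : (2 * ((A : ℝ) + 1) * w) ^ 2 * D ≤ (T * D) * V := by
      have := mul_le_mul_of_nonneg_right hsq hDpos.le
      nlinarith
    rw [hstep, hVc] at h3
    have hpos : 0 < (2 * ((A : ℝ) + 1)) ^ 2 := by positivity
    have h4 : (2 * ((A : ℝ) + 1)) ^ 2 * (w ^ 2 * D)
        ≤ (2 * ((A : ℝ) + 1)) ^ 2 * (c ^ 2 * (2 * (A : ℝ) + 1)) := by
      nlinarith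
    exact le_of_mul_le_mul_left h4 hpos
  rw [← hw, ← hc, ← hD]
  have hratio : w ^ 2 ≤ c ^ 2 * ((2 * (A : ℝ) + 1) / D) := by
    rw [← mul_div_assoc, le_div_iff₀ hDpos]
    exact hkey
  have hr0 : 0 ≤ (2 * (A : ℝ) + 1) / D := by positivity
  calc w = Real.sqrt (w ^ 2) := (Real.sqrt_sq hw0).symm
    _ ≤ Real.sqrt (c ^ 2 * ((2 * (A : ℝ) + 1) / D)) := Real.sqrt_le_sqrt hratio
    _ = c * Real.sqrt ((2 * (A : ℝ) + 1) / D) := by
        rw [Real.sqrt_mul (by positivity), Real.sqrt_sq hc0]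

end Vale.Agent.P321
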