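import Vale.Agent.P321.Del2
import Vale.Agent.P321.Hyp4

/-!
# `DeltaA` as a binomial expectation
-/

namespace Vale.Agent.P321

open Finset

/-- Sketch: unfold `DeltaA`; `Finset.mul_sum`; compare termwise (`Finset.sum_le_sum`).  For
`L ≤ 2A-1` use `token_ratio` with `mx = C(2A,L) * √ρ`, `ρ = (2A+1)/((L+1)(2A+1-L))`
(`hyper_max`, `L ≤ 2A`), multiply by `q^(2(2A-1-L)) ≥ 0`.  Then it is an identity:
`C(2A,L) = 2A C(2A-1,L) / (2A-L)` (`choose_two_mul_pred`, `2A - L > 0`),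
`q^(2 j) = (q^2)^j` (`pow_mul`), `θ^(L+1) = θ^L θ`:
`q^(2(N-L)) θ^(L+1) c0 (2A C(N,L)/(2A-L)) √ρ L/(A(2A-1))
  = (2 c0 θ/(2A-1)) * (C(N,L) θ^L (q^2)^(N-L) * (L/(2A-L) * √ρ))`. -/
theorem DeltaA_le (q : ℝ) (hq0 : 0 < q) (hq1 : q < 1) (A : ℕ) (hA : 1 ≤ A) :
    DeltaA q A ≤ (2 * c0 q * (1 - q ^ 2) / (2 * (A : ℝ) - 1))
      * ∑ L ∈ range (2 * A - 1 + 1),
          ((2 * A - 1).choose L : ℝ) * (1 - q ^ 2) ^ L * (q ^ 2) ^ (2 * A - 1 - L)
            * ((L : ℝ) / (2 * (A : ℝ) - L)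
              * Real.sqrt ((2 * (A : ℝ) + 1) / (((L : ℝ) + 1) * (2 * (A : ℝ) + 1 - L)))) := by
  unfold DeltaA
  rw [Finset.mul_sum]
  apply Finset.sum_le_sum
  intro L hL
  have hL1 : L ≤ 2 * A - 1 := by
    have := Finset.mem_range.mp hL
    omega
  have hL2 : L ≤ 2 * A := by omega
  set r : ℝ := Real.sqrt ((2 * (A : ℝ) + 1) / (((L : ℝ) + 1) * (2 * (A : ℝ) + 1 - L))) with hr
  have htok := token_ratio q hq0 hq1 A L hA hL1 (((2 * A).choose L : ℝ) * r)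
    (fun k hk => hyper_max A L k hk hL2)
  have hqn : 0 ≤ q ^ (2 * (2 * A - 1 - L)) := pow_nonneg hq0.le _
  have hstep := mul_le_mul_of_nonneg_left htok hqn
  refine le_trans hstep (le_of_eq ?_)
  have hApos : (0 : ℝ) < A := by exact_mod_cast hA
  have hLle : (L : ℝ) ≤ 2 * (A : ℝ) - 1 := by
    have h1 : (L : ℝ) + 1 ≤ 2 * (A : ℝ) := by
      have : L + 1 ≤ 2 * A := by omega
      exact_mod_cast this
    linarith
  have hd : (0 : ℝ) < 2 * (A : ℝ) - L := by linarith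
  have hA1 : (1 : ℝ) ≤ A := by exact_mod_cast hA
  have hd2 : (0 : ℝ) < 2 * (A : ℝ) - 1 := by linarith
  have hch := choose_two_mul_pred A L hA
  have hch' : ((2 * A).choose L : ℝ) = 2 * A * ((2 * A - 1).choose L : ℝ) / (2 * (A : ℝ) - L) := by
    rw [eq_div_iff hd.ne']; exact hch
  rw [hch', pow_mul]
  field_simp
  ring

end Vale.Agent.P321
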