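import Mathlib

/-!
# Negative moments of the binomial distribution, II
-/

namespace Vale.Agent.P321

open Finset

/-- `E[1/((L+1)(N+2-L))] ≤ 1 / ((N+1)(N+2) θ s)` for `L ~ Bin(N, θ)`, `s = 1 - θ`.
Sketch: for `L ≤ N`: `1/(N+2-L) ≤ 1/(N+1-L)` and
`C(N,L) (N+1)(N+2) = C(N+2,L+1) (L+1)(N+1-L)`
(`(L+1) C(N+1,L+1) = (N+1) C(N,L)` by `Nat.succ_mul_choose_eq`, and
`C(N+2,L+1) (N+2-(L+1)) = C(N+1,L+1) (N+2)` by `Nat.choose_mul_succ_eq`).  Hence each term is at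
most `1 / ((N+1)(N+2) θ s) * C(N+2,L+1) θ^(L+1) s^(N+2-(L+1))`, and the sum of
`C(N+2,j) θ^j s^(N+2-j)` over `1 ≤ j ≤ N+1` is at most `(θ+s)^(N+2) = 1`
(`add_pow`, `Finset.sum_range_succ'`, `Finset.sum_range_succ`). -/
theorem negmom_mixed (θ s : ℝ) (hθ : 0 < θ) (hs : 0 < s) (h1 : θ + s = 1) (N : ℕ) :
    ∑ L ∈ range (N + 1), (N.choose L : ℝ) * θ ^ L * s ^ (N - L)
        / (((L : ℝ) + 1) * ((N : ℝ) + 2 - L))
      ≤ 1 / (((N : ℝ) + 1) * (N + 2) * θ * s) := by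
  have hN1 : (0 : ℝ) < (N : ℝ) + 1 := by positivity
  have hN2 : (0 : ℝ) < (N : ℝ) + 2 := by positivity
  -- the full binomial sum
  have hfull : ∑ j ∈ range (N + 2 + 1), θ ^ j * s ^ (N + 2 - j) * ((N + 2).choose j : ℝ) = 1 := by
    rw [← add_pow, h1, one_pow]
  -- the shifted sum is at most the full sum
  have hpart : ∑ L ∈ range (N + 1),
      θ ^ (L + 1) * s ^ (N + 2 - (L + 1)) * ((N + 2).choose (L + 1) : ℝ) ≤ 1 := by
    rw [← hfull, Finset.sum_range_succ' _ (N + 2), Finset.sum_range_succ _ (N + 1)]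
    have h0 : 0 ≤ θ ^ (N + 1 + 1) * s ^ (N + 2 - (N + 1 + 1)) * ((N + 2).choose (N + 1 + 1) : ℝ) := by
      positivity
    have h0' : 0 ≤ θ ^ 0 * s ^ (N + 2 - 0) * ((N + 2).choose 0 : ℝ) := by positivity
    linarith
  -- termwise bound
  have hterm : ∀ L ∈ range (N + 1), (N.choose L : ℝ) * θ ^ L * s ^ (N - L)
        / (((L : ℝ) + 1) * ((N : ℝ) + 2 - L))
      ≤ 1 / (((N : ℝ) + 1) * (N + 2) * θ * s) *
        (θ ^ (L + 1) * s ^ (N + 2 - (L + 1)) * ((N + 2).choose (L + 1) : ℝ)) := by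
    intro L hL
    have hLN : L ≤ N := Nat.lt_succ_iff.1 (Finset.mem_range.1 hL)
    have hLr : (L : ℝ) ≤ N := by exact_mod_cast hLN
    have hL1 : (0 : ℝ) < (L : ℝ) + 1 := by positivity
    have hA : (0 : ℝ) < (N : ℝ) + 1 - L := by linarith
    have hB : (0 : ℝ) < (N : ℝ) + 2 - L := by linarith
    -- the choose identity over the naturals
    have e1 : (N + 1) * N.choose L = (N + 1).choose (L + 1) * (L + 1) :=
      Nat.add_one_mul_choose_eq N L
    have e2 : (N + 1).choose (L + 1) * (N + 1 + 1) = (N + 1 + 1).choose (L + 1) * (N + 1 + 1 - (L + 1)) :=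
      Nat.choose_mul_succ_eq (N + 1) (L + 1)
    have e1r : ((N : ℝ) + 1) * (N.choose L : ℝ) = ((N + 1).choose (L + 1) : ℝ) * ((L : ℝ) + 1) := by
      exact_mod_cast e1
    have hsub : N + 1 + 1 - (L + 1) = N + 1 - L := by omega
    have e2r : ((N + 1).choose (L + 1) : ℝ) * ((N : ℝ) + 2)
        = ((N + 2).choose (L + 1) : ℝ) * ((N : ℝ) + 1 - L) := by
      rw [hsub] at e2
      have h3 : (((N + 1 - L : ℕ)) : ℝ) = (N : ℝ) + 1 - L := by
        rw [Nat.cast_sub (by omega)]; push_cast; ring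
      have := congrArg (fun t : ℕ => (t : ℝ)) e2
      simp only [Nat.cast_mul] at this
      rw [h3] at this
      have h4 : ((N + 1 + 1 : ℕ) : ℝ) = (N : ℝ) + 2 := by push_cast; ring
      rw [h4] at this
      exact this
    have key : (N.choose L : ℝ) * (((N : ℝ) + 1) * ((N : ℝ) + 2))
        = ((N + 2).choose (L + 1) : ℝ) * (((L : ℝ) + 1) * ((N : ℝ) + 1 - L)) := by
      calc (N.choose L : ℝ) * (((N : ℝ) + 1) * ((N : ℝ) + 2))
          = (((N : ℝ) + 1) * (N.choose L : ℝ)) * ((N : ℝ) + 2) := by ring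
        _ = (((N + 1).choose (L + 1) : ℝ) * ((N : ℝ) + 2)) * ((L : ℝ) + 1) := by rw [e1r]; ring
        _ = ((N + 2).choose (L + 1) : ℝ) * (((L : ℝ) + 1) * ((N : ℝ) + 1 - L)) := by
            rw [e2r]; ring
    have hexp : N + 2 - (L + 1) = (N - L) + 1 := by omega
    have hrhs : 1 / (((N : ℝ) + 1) * (N + 2) * θ * s) *
        (θ ^ (L + 1) * s ^ (N + 2 - (L + 1)) * ((N + 2).choose (L + 1) : ℝ))
        = (N.choose L : ℝ) * θ ^ L * s ^ (N - L) / (((L : ℝ) + 1) * ((N : ℝ) + 1 - L)) := by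
      rw [hexp, pow_succ, pow_succ]
      rw [div_mul_eq_mul_div, one_mul, div_eq_div_iff (by positivity) (by positivity)]
      linear_combination (-(θ ^ L * s ^ (N - L) * θ * s)) * key
    rw [hrhs]
    apply div_le_div_of_nonneg_left (by positivity) (by positivity)
    apply mul_le_mul_of_nonneg_left (by linarith) hL1.le
  calc ∑ L ∈ range (N + 1), (N.choose L : ℝ) * θ ^ L * s ^ (N - L)
        / (((L : ℝ) + 1) * ((N : ℝ) + 2 - L))
      ≤ ∑ L ∈ range (N + 1), 1 / (((N : ℝ) + 1) * (N + 2) * θ * s) *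
        (θ ^ (L + 1) * s ^ (N + 2 - (L + 1)) * ((N + 2).choose (L + 1) : ℝ)) :=
        Finset.sum_le_sum hterm
    _ = 1 / (((N : ℝ) + 1) * (N + 2) * θ * s) * ∑ L ∈ range (N + 1),
        (θ ^ (L + 1) * s ^ (N + 2 - (L + 1)) * ((N + 2).choose (L + 1) : ℝ)) := by
        rw [Finset.mul_sum]
    _ ≤ 1 / (((N : ℝ) + 1) * (N + 2) * θ * s) * 1 := by
        apply mul_le_mul_of_nonneg_left hpart (by positivity)
    _ = 1 / (((N : ℝ) + 1) * (N + 2) * θ * s) := by ring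

end Vale.Agent.P321
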