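import Vale.Agent.P321.NegMom1
import Vale.Agent.P321.NegMom2

/-!
# Cauchy-Schwarz for the binomial expectation
-/

namespace Vale.Agent.P321

open Finset

/-- The statement of `binom_cs` in terms of `N = 2A - 1`. -/
theorem binom_cs_aux (θ s : ℝ) (hθ : 0 < θ) (hs : 0 < s) (h1 : θ + s = 1) (N : ℕ) :
    (∑ L ∈ range (N + 1),
        (N.choose L : ℝ) * θ ^ L * s ^ (N - L)
          * ((L : ℝ) / ((N : ℝ) + 1 - L)
            * Real.sqrt (((N : ℝ) + 2) / (((L : ℝ) + 1) * ((N : ℝ) + 2 - L))))) ^ 2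
      ≤ 2 / (((N : ℝ) + 1) * θ * s ^ 3) := by
  have hN0 : (0 : ℝ) ≤ (N : ℝ) := Nat.cast_nonneg N
  have hb : ∀ L : ℕ, 0 ≤ (N.choose L : ℝ) * θ ^ L * s ^ (N - L) := fun L => by positivity
  -- Cauchy-Schwarz
  have hCS := Finset.sum_mul_sq_le_sq_mul_sq (range (N + 1))
    (fun L : ℕ => Real.sqrt ((N.choose L : ℝ) * θ ^ L * s ^ (N - L))
      * ((L : ℝ) / ((N : ℝ) + 1 - L)))
    (fun L : ℕ => Real.sqrt ((N.choose L : ℝ) * θ ^ L * s ^ (N - L))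
      * Real.sqrt (((N : ℝ) + 2) / (((L : ℝ) + 1) * ((N : ℝ) + 2 - L))))
  have e0 : ∑ L ∈ range (N + 1),
        (N.choose L : ℝ) * θ ^ L * s ^ (N - L)
          * ((L : ℝ) / ((N : ℝ) + 1 - L)
            * Real.sqrt (((N : ℝ) + 2) / (((L : ℝ) + 1) * ((N : ℝ) + 2 - L))))
      = ∑ L ∈ range (N + 1),
        (Real.sqrt ((N.choose L : ℝ) * θ ^ L * s ^ (N - L)) * ((L : ℝ) / ((N : ℝ) + 1 - L)))
        * (Real.sqrt ((N.choose L : ℝ) * θ ^ L * s ^ (N - L))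
          * Real.sqrt (((N : ℝ) + 2) / (((L : ℝ) + 1) * ((N : ℝ) + 2 - L)))) := by
    refine Finset.sum_congr rfl fun L _ => ?_
    have := Real.mul_self_sqrt (hb L)
    calc (N.choose L : ℝ) * θ ^ L * s ^ (N - L)
          * ((L : ℝ) / ((N : ℝ) + 1 - L)
            * Real.sqrt (((N : ℝ) + 2) / (((L : ℝ) + 1) * ((N : ℝ) + 2 - L))))
        = (Real.sqrt ((N.choose L : ℝ) * θ ^ L * s ^ (N - L))
            * Real.sqrt ((N.choose L : ℝ) * θ ^ L * s ^ (N - L)))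
          * ((L : ℝ) / ((N : ℝ) + 1 - L)
            * Real.sqrt (((N : ℝ) + 2) / (((L : ℝ) + 1) * ((N : ℝ) + 2 - L)))) := by rw [this]
      _ = _ := by ring
  rw [e0]
  refine hCS.trans ?_
  -- first factor
  have h1' : ∑ L ∈ range (N + 1),
      (Real.sqrt ((N.choose L : ℝ) * θ ^ L * s ^ (N - L)) * ((L : ℝ) / ((N : ℝ) + 1 - L))) ^ 2
      ≤ (N : ℝ) ^ 2 * (2 / (((N : ℝ) + 1) * (N + 2) * s ^ 2)) := by
    refine le_trans ?_ (mul_le_mul_of_nonneg_left (negmom_sq θ s hθ.le hs h1 N) (by positivity))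
    rw [Finset.mul_sum]
    refine Finset.sum_le_sum fun L hL => ?_
    have hLN : L ≤ N := Nat.lt_succ_iff.mp (Finset.mem_range.mp hL)
    have hLN' : (L : ℝ) ≤ (N : ℝ) := by exact_mod_cast hLN
    have hL0 : (0 : ℝ) ≤ (L : ℝ) := Nat.cast_nonneg L
    have hpos : (0 : ℝ) < (N : ℝ) + 1 - L := by linarith
    rw [mul_pow, Real.sq_sqrt (hb L), div_pow]
    have hsq : (L : ℝ) ^ 2 ≤ (N : ℝ) ^ 2 := by nlinarith
    have hden : (0 : ℝ) < ((N : ℝ) + 1 - L) ^ 2 := by positivity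
    calc (N.choose L : ℝ) * θ ^ L * s ^ (N - L) * ((L : ℝ) ^ 2 / ((N : ℝ) + 1 - L) ^ 2)
        ≤ (N.choose L : ℝ) * θ ^ L * s ^ (N - L) * ((N : ℝ) ^ 2 / ((N : ℝ) + 1 - L) ^ 2) := by
          refine mul_le_mul_of_nonneg_left ?_ (hb L)
          exact div_le_div_of_nonneg_right hsq hden.le
      _ = (N : ℝ) ^ 2 * ((N.choose L : ℝ) * θ ^ L * s ^ (N - L) / ((N : ℝ) + 1 - L) ^ 2) := by
          ring
  -- second factor
  have h2' : ∑ L ∈ range (N + 1),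
      (Real.sqrt ((N.choose L : ℝ) * θ ^ L * s ^ (N - L))
          * Real.sqrt (((N : ℝ) + 2) / (((L : ℝ) + 1) * ((N : ℝ) + 2 - L)))) ^ 2
      ≤ ((N : ℝ) + 2) * (1 / (((N : ℝ) + 1) * (N + 2) * θ * s)) := by
    refine le_trans (le_of_eq ?_)
      (mul_le_mul_of_nonneg_left (negmom_mixed θ s hθ hs h1 N) (by positivity))
    rw [Finset.mul_sum]
    refine Finset.sum_congr rfl fun L hL => ?_
    have hLN : L ≤ N := Nat.lt_succ_iff.mp (Finset.mem_range.mp hL)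
    have hLN' : (L : ℝ) ≤ (N : ℝ) := by exact_mod_cast hLN
    have hL0 : (0 : ℝ) ≤ (L : ℝ) := Nat.cast_nonneg L
    have hpos : (0 : ℝ) < (N : ℝ) + 2 - L := by linarith
    have hρ : 0 ≤ ((N : ℝ) + 2) / (((L : ℝ) + 1) * ((N : ℝ) + 2 - L)) := by positivity
    rw [mul_pow, Real.sq_sqrt (hb L), Real.sq_sqrt hρ]
    ring
  have hnn1 : 0 ≤ ∑ L ∈ range (N + 1),
      (Real.sqrt ((N.choose L : ℝ) * θ ^ L * s ^ (N - L)) * ((L : ℝ) / ((N : ℝ) + 1 - L))) ^ 2 :=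
    Finset.sum_nonneg fun L _ => sq_nonneg _
  have hnn2 : 0 ≤ ((N : ℝ) + 2) * (1 / (((N : ℝ) + 1) * (N + 2) * θ * s)) := by positivity
  refine (mul_le_mul h1' h2' (Finset.sum_nonneg fun L _ => sq_nonneg _) (by positivity)).trans ?_
  -- final arithmetic
  have key : (N : ℝ) ^ 2 * (2 / (((N : ℝ) + 1) * (N + 2) * s ^ 2))
        * (((N : ℝ) + 2) * (1 / (((N : ℝ) + 1) * (N + 2) * θ * s)))
      = (2 / (((N : ℝ) + 1) * θ * s ^ 3)) * ((N : ℝ) ^ 2 / (((N : ℝ) + 1) * (N + 2))) := by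
    field_simp
  rw [key]
  have hfrac : (N : ℝ) ^ 2 / (((N : ℝ) + 1) * (N + 2)) ≤ 1 := by
    rw [div_le_one (by positivity)]
    nlinarith
  have hpos : 0 ≤ 2 / (((N : ℝ) + 1) * θ * s ^ 3) := by positivity
  calc (2 / (((N : ℝ) + 1) * θ * s ^ 3)) * ((N : ℝ) ^ 2 / (((N : ℝ) + 1) * (N + 2)))
      ≤ (2 / (((N : ℝ) + 1) * θ * s ^ 3)) * 1 := mul_le_mul_of_nonneg_left hfrac hpos
    _ = _ := mul_one _

/-- Sketch.  Put `N = 2A - 1` (so `(N : ℝ) = 2A - 1`, `2A - L = N + 1 - L`, `2A + 1 - L = N + 2 - L`,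
`2A + 1 = N + 2`), `b L = C(N,L) θ^L s^(N-L) ≥ 0`, `X L = L / (N+1-L)`, `Y L = √ρ_L`,
`ρ_L = (N+2) / ((L+1)(N+2-L)) ≥ 0`.  Cauchy-Schwarz
(`Finset.sum_mul_sq_le_sq_mul_sq` with `√(b L) X L` and `√(b L) Y L`, or
`Finset.sum_sq_le_sum_mul_sum_of_sq_le_mul`): `(∑ b X Y)^2 ≤ (∑ b X^2) (∑ b Y^2)`.
* `X^2 ≤ N^2 / (N+1-L)^2` for `L ≤ N`, so `∑ b X^2 ≤ N^2 * 2 / ((N+1)(N+2) s^2)` (`negmom_sq`).
* `Y^2 = ρ_L` (`Real.sq_sqrt`), so `∑ b Y^2 ≤ (N+2) / ((N+1)(N+2) θ s) = 1 / ((N+1) θ s)`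
  (`negmom_mixed`).
* Product: `2 N^2 / ((N+1)^2 (N+2) θ s^3) ≤ 2 / ((N+1) θ s^3) = 1 / (A θ s^3)`
  since `N^2 ≤ (N+1)(N+2)` and `N + 1 = 2A`. -/
theorem binom_cs (θ s : ℝ) (hθ : 0 < θ) (hs : 0 < s) (h1 : θ + s = 1) (A : ℕ) (hA : 1 ≤ A) :
    (∑ L ∈ range (2 * A - 1 + 1),
        ((2 * A - 1).choose L : ℝ) * θ ^ L * s ^ (2 * A - 1 - L)
          * ((L : ℝ) / (2 * (A : ℝ) - L)
            * Real.sqrt ((2 * (A : ℝ) + 1) / (((L : ℝ) + 1) * (2 * (A : ℝ) + 1 - L))))) ^ 2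
      ≤ 1 / ((A : ℝ) * θ * s ^ 3) := by
  obtain ⟨N, hN⟩ : ∃ N, 2 * A - 1 = N := ⟨_, rfl⟩
  have hNA : 2 * (A : ℝ) = (N : ℝ) + 1 := by
    have : 2 * A = N + 1 := by omega
    exact_mod_cast this
  have hA' : (A : ℝ) = ((N : ℝ) + 1) / 2 := by linarith
  have haux := binom_cs_aux θ s hθ hs h1 N
  rw [hN, hNA]
  have e1 : (1 : ℝ) / ((A : ℝ) * θ * s ^ 3) = 2 / (((N : ℝ) + 1) * θ * s ^ 3) := by
    rw [hA']
    field_simp
  rw [e1]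
  have e2 : (N : ℝ) + 1 + 1 = (N : ℝ) + 2 := by ring
  rw [e2]
  exact haux

end Vale.Agent.P321
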