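import Vale.Agent.P321.Del3
import Vale.Agent.P321.Del4

/-!
# The discrimination is `O(A^(-3/2))`
-/

namespace Vale.Agent.P321

open Finset

/-- Sketch: `0 ≤ DeltaA ≤ C * Σ` (`DeltaA_nonneg`, `DeltaA_le`) with
`C = 2 c0 θ / (2A-1) ≥ 0`, `θ = 1 - q^2`, so `DeltaA^2 ≤ C^2 Σ^2` (`pow_le_pow_left₀`, `mul_pow`),
and `Σ^2 ≤ 1 / (A θ (q^2)^3)` by `binom_cs θ (q^2)`.  Finally
`4 c0^2 θ^2 / (2A-1)^2 / (A θ q^6) = 4 c0^2 θ / ((2A-1)^2 A q^6) ≤ 4 c0^2 θ / (q^6 A^3)`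
because `2A - 1 ≥ A ≥ 1`. -/
theorem DeltaA_sq_le (q : ℝ) (hq0 : 0 < q) (hq1 : q < 1) (A : ℕ) (hA : 1 ≤ A) :
    DeltaA q A ^ 2 ≤ 4 * c0 q ^ 2 * (1 - q ^ 2) / (q ^ 6 * (A : ℝ) ^ 3) := by
  have hA1 : (1 : ℝ) ≤ (A : ℝ) := by exact_mod_cast hA
  have hθ : 0 < 1 - q ^ 2 := by nlinarith
  have hs : 0 < q ^ 2 := by positivity
  have hc : 0 < c0 q := c0_pos q hq0 hq1
  have h0 := DeltaA_nonneg q hq0 hq1 A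
  have h1 := DeltaA_le q hq0 hq1 A hA
  have h2 := binom_cs (1 - q ^ 2) (q ^ 2) hθ hs (by ring) A hA
  set S : ℝ := ∑ L ∈ range (2 * A - 1 + 1),
          ((2 * A - 1).choose L : ℝ) * (1 - q ^ 2) ^ L * (q ^ 2) ^ (2 * A - 1 - L)
            * ((L : ℝ) / (2 * (A : ℝ) - L)
              * Real.sqrt ((2 * (A : ℝ) + 1) / (((L : ℝ) + 1) * (2 * (A : ℝ) + 1 - L)))) with hS
  have hB : 0 < 2 * (A : ℝ) - 1 := by linarith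
  have h3 : DeltaA q A ^ 2 ≤ ((2 * c0 q * (1 - q ^ 2) / (2 * (A : ℝ) - 1)) * S) ^ 2 :=
    pow_le_pow_left₀ h0 h1 2
  have h4 : ((2 * c0 q * (1 - q ^ 2) / (2 * (A : ℝ) - 1)) * S) ^ 2
      ≤ (2 * c0 q * (1 - q ^ 2) / (2 * (A : ℝ) - 1)) ^ 2 * (1 / ((A : ℝ) * (1 - q ^ 2) * (q ^ 2) ^ 3)) := by
    rw [mul_pow]
    exact mul_le_mul_of_nonneg_left h2 (by positivity)
  have h5 : (2 * c0 q * (1 - q ^ 2) / (2 * (A : ℝ) - 1)) ^ 2 * (1 / ((A : ℝ) * (1 - q ^ 2) * (q ^ 2) ^ 3))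
      = 4 * c0 q ^ 2 * (1 - q ^ 2) / (q ^ 6 * ((2 * (A : ℝ) - 1) ^ 2 * (A : ℝ))) := by
    have hA0 : (A : ℝ) ≠ 0 := by positivity
    field_simp
    ring
  have h6 : 4 * c0 q ^ 2 * (1 - q ^ 2) / (q ^ 6 * ((2 * (A : ℝ) - 1) ^ 2 * (A : ℝ)))
      ≤ 4 * c0 q ^ 2 * (1 - q ^ 2) / (q ^ 6 * (A : ℝ) ^ 3) := by
    apply div_le_div_of_nonneg_left (by positivity) (by positivity)
    apply mul_le_mul_of_nonneg_left _ (by positivity)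
    have h7 : (A : ℝ) ^ 2 ≤ (2 * (A : ℝ) - 1) ^ 2 := by
      apply pow_le_pow_left₀ (by linarith) (by linarith)
    calc (A : ℝ) ^ 3 = (A : ℝ) ^ 2 * A := by ring
      _ ≤ (2 * (A : ℝ) - 1) ^ 2 * A := mul_le_mul_of_nonneg_right h7 (by linarith)
  calc DeltaA q A ^ 2 ≤ _ := h3
    _ ≤ _ := h4
    _ = _ := h5
    _ ≤ _ := h6

end Vale.Agent.P321
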