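import Vale.Agent.P321.TraceRec

/-!
# Finiteness of the sample complexity

The estimator which outputs the first observed string of length `n` succeeds with probability
at least `1 - (1 - (1 - q) ^ n) ^ m` from `m` traces.
-/

namespace Vale.Agent.P321

/-- Monotonicity of `traceExp`, only comparing on subsequences of `x`. -/
theorem traceExp_le_of_sublist (q : ℝ) (hq0 : 0 ≤ q) (hq1 : q ≤ 1) (x : List Bool)
    {φ ψ : List Bool → ℝ} (h : ∀ w, w.Sublist x → φ w ≤ ψ w) :
    traceExp q x φ ≤ traceExp q x ψ := by
  unfold traceExp
  apply List.sum_le_sum
  intro w hw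
  have h1 : 0 ≤ 1 - q := by linarith
  have h2 : 0 ≤ (1 - q) ^ w.length * q ^ (x.length - w.length) := by positivity
  exact mul_le_mul_of_nonneg_left (h w (List.mem_sublists'.1 hw)) h2

theorem traceExp_eq_of_sublist (q : ℝ) (x : List Bool)
    {φ ψ : List Bool → ℝ} (h : ∀ w, w.Sublist x → φ w = ψ w) :
    traceExp q x φ = traceExp q x ψ := by
  unfold traceExp
  congr 1
  apply List.map_congr_left
  intro w hw
  rw [h w (List.mem_sublists'.1 hw)]

theorem samplesExp_const_one (q : ℝ) (x : List Bool) (m : ℕ) :
    samplesExp q x m (fun _ => 1) = 1 := by
  induction m with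
  | zero => rfl
  | succ m ih =>
    show traceExp q x (fun _ => samplesExp q x m (fun _ => 1)) = 1
    rw [ih, traceExp_one]

/-- Probability that nothing is deleted, as a lower bound. -/
theorem pow_le_traceExp_full (q : ℝ) (hq0 : 0 ≤ q) (hq1 : q ≤ 1) (x : List Bool) :
    (1 - q) ^ x.length
      ≤ traceExp q x (fun w => if w.length = x.length then (1 : ℝ) else 0) := by
  induction x with
  | nil => simp [traceExp_nil]
  | cons b x ih =>
    rw [traceExp_cons]
    have h0 : 0 ≤ traceExp q x (fun w => if w.length = (b :: x).length then (1 : ℝ) else 0) := by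
      have h := traceExp_le_of_sublist q hq0 hq1 x (φ := fun _ => 0)
        (ψ := fun w => if w.length = (b :: x).length then (1 : ℝ) else 0)
        (fun w _ => by split_ifs <;> norm_num)
      have hz : traceExp q x (fun _ => (0 : ℝ)) = 0 := by
        simp [traceExp]
      rw [hz] at h
      exact h
    have h1 : traceExp q x (fun w => if (b :: w).length = (b :: x).length then (1 : ℝ) else 0)
        = traceExp q x (fun w => if w.length = x.length then (1 : ℝ) else 0) := by
      apply traceExp_congr
      intro w
      simp
    rw [h1]
    have h2 : 0 ≤ 1 - q := by linarith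
    have h3 : (1 - q) ^ (b :: x).length = (1 - q) * (1 - q) ^ x.length := by
      rw [List.length_cons, pow_succ]
      ring
    rw [h3]
    have h4 := mul_le_mul_of_nonneg_left ih h2
    have h5 := mul_nonneg hq0 h0
    linarith

theorem traceExp_full_le_one (q : ℝ) (hq0 : 0 ≤ q) (hq1 : q ≤ 1) (x : List Bool) :
    traceExp q x (fun w => if w.length = x.length then (1 : ℝ) else 0) ≤ 1 := by
  have h := traceExp_le_of_sublist q hq0 hq1 x
    (φ := fun w => if w.length = x.length then (1 : ℝ) else 0) (ψ := fun _ => 1)
    (fun w _ => by split_ifs <;> norm_num)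
  rw [traceExp_one] at h
  exact h

/-- The first string of length `n` in a sequence (a fixed string if there is none). -/
def firstFull (n : ℕ) : List (List Bool) → List.Vector Bool n
  | [] => List.Vector.replicate n false
  | w :: ws => if h : w.length = n then (⟨w, h⟩ : List.Vector Bool n) else firstFull n ws

theorem firstFull_cons_pos (n : ℕ) (w : List Bool) (ws : List (List Bool)) (h : w.length = n) :
    firstFull n (w :: ws) = (⟨w, h⟩ : List.Vector Bool n) := by
  unfold firstFull
  exact dif_pos h

theorem firstFull_cons_neg (n : ℕ) (w : List Bool) (ws : List (List Bool)) (h : ¬ w.length = n) :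
    firstFull n (w :: ws) = firstFull n ws := by
  simp [firstFull, h]

/-- The deterministic estimator which outputs the first string of length `n`. -/
noncomputable def firstFullEst (n : ℕ) (ws : List (List Bool)) (y : List.Vector Bool n) : ℝ :=
  if firstFull n ws = y then 1 else 0

theorem firstFullEst_isEstimator (n : ℕ) : IsEstimator (firstFullEst n) := by
  constructor
  · intro ws y
    unfold firstFullEst
    split_ifs <;> norm_num
  · intro ws
    unfold firstFullEst
    simp

theorem successProb_firstFull_succ (q : ℝ) {n : ℕ} (m : ℕ) (x : List.Vector Bool n) :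
    1 - successProb q (m + 1) (firstFullEst n) x
      = (1 - successProb q m (firstFullEst n) x)
        * (1 - traceExp q x.toList
            (fun w => if w.length = x.toList.length then (1 : ℝ) else 0)) := by
  set A := successProb q m (firstFullEst n) x with hA
  have h1 : successProb q (m + 1) (firstFullEst n) x
      = traceExp q x.toList (fun w => A + (1 - A) *
          (if w.length = x.toList.length then (1 : ℝ) else 0)) := by
    show traceExp q x.toList
      (fun w => samplesExp q x.toList m (fun ws => firstFullEst n (w :: ws) x)) = _
    apply traceExp_eq_of_sublist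
    intro w hw
    have hxl : x.toList.length = n := x.toList_length
    by_cases hl : w.length = n
    · have hwx : w = x.toList := hw.eq_of_length (by rw [hl, hxl])
      have h2 : ∀ ws, firstFullEst n (w :: ws) x = 1 := by
        intro ws
        unfold firstFullEst
        rw [firstFull_cons_pos n w ws hl, if_pos]
        apply Subtype.ext
        exact hwx
      simp only [h2]
      rw [samplesExp_const_one, if_pos (by rw [hl, hxl])]
      ring
    · have h2 : ∀ ws, firstFullEst n (w :: ws) x = firstFullEst n ws x := by
        intro ws
        unfold firstFullEst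
        rw [firstFull_cons_neg n w ws hl]
      simp only [h2]
      rw [if_neg (by rw [hxl]; exact hl)]
      rw [hA]
      unfold successProb
      ring
  rw [h1, traceExp_add, traceExp_const_mul]
  have h3 : traceExp q x.toList (fun _ => A) = A := by
    have := traceExp_const_mul q x.toList A (fun _ => 1)
    rw [traceExp_one] at this
    simpa using this
  rw [h3]
  ring

theorem successProb_firstFull (q : ℝ) (hq0 : 0 ≤ q) (hq1 : q ≤ 1) {n : ℕ} (m : ℕ)
    (x : List.Vector Bool n) :
    0 ≤ 1 - successProb q m (firstFullEst n) x ∧
      1 - successProb q m (firstFullEst n) x ≤ (1 - (1 - q) ^ n) ^ m := by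
  induction m with
  | zero =>
    have h : successProb q 0 (firstFullEst n) x = firstFullEst n [] x := rfl
    rw [h]
    unfold firstFullEst
    split_ifs <;> norm_num
  | succ m ih =>
    rw [successProb_firstFull_succ]
    have hxl : x.toList.length = n := x.toList_length
    have h1 := pow_le_traceExp_full q hq0 hq1 x.toList
    have h2 := traceExp_full_le_one q hq0 hq1 x.toList
    simp only [hxl] at h1 h2 ⊢
    constructor
    · exact mul_nonneg ih.1 (by linarith)
    · rw [pow_succ]
      exact mul_le_mul ih.2 (by linarith) (by linarith) (le_trans ih.1 ih.2)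

/-- For `q < 1`, some number of traces suffices for reconstruction with probability `2/3`. -/
theorem exists_reconstruction (q : ℝ) (hq0 : 0 ≤ q) (hq1 : q < 1) (n : ℕ) :
    ∃ (m : ℕ) (est : List (List Bool) → List.Vector Bool n → ℝ),
      IsEstimator est ∧ ∀ x : List.Vector Bool n, 2 / 3 ≤ successProb q m est x := by
  have hp : 0 < (1 - q) ^ n := pow_pos (by linarith) n
  obtain ⟨m, hm⟩ := exists_pow_lt_of_lt_one (x := (1 / 3 : ℝ)) (y := 1 - (1 - q) ^ n)
    (by norm_num) (by linarith)
  refine ⟨m, firstFullEst n, firstFullEst_isEstimator n, ?_⟩
  intro x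
  have h := (successProb_firstFull q hq0 hq1.le m x).2
  linarith

end Vale.Agent.P321
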