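import Vale.Agent.P321.TraceRec

/-!
# Independent samples as a product space
-/

namespace Vale.Agent.P321

open Finset

/-- If the law of one trace is represented on a finite type `Ω`, then the law of `m` independent
traces is represented on `Fin m → Ω` with product weights.
Sketch: induction on `m` generalizing `Φ`.  Step: unfold `samplesExp`, use `hrep`, the induction
hypothesis for `fun ws => Φ (g ω :: ws)`, then re-index `Fin (m+1) → Ω` as `Ω × (Fin m → Ω)` with
`Fin.consEquiv` (or `Fin.insertNthEquiv`), `Fin.prod_univ_succ`, `List.ofFn_succ`,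
`Fintype.sum_prod_type`, `Finset.mul_sum`. -/
theorem samplesExp_eq_pi {Ω : Type*} [Fintype Ω] (q : ℝ) (x : List Bool) (P : Ω → ℝ)
    (g : Ω → List Bool) (hrep : ∀ φ, traceExp q x φ = ∑ ω, P ω * φ (g ω)) (m : ℕ)
    (Φ : List (List Bool) → ℝ) :
    samplesExp q x m Φ
      = ∑ ω : Fin m → Ω, (∏ j, P (ω j)) * Φ (List.ofFn (fun j => g (ω j))) := by
  induction m generalizing Φ with
  | zero =>
    simp [samplesExp]
  | succ m ih =>
    rw [samplesExp, hrep]
    rw [← (Fin.consEquiv (fun _ : Fin (m + 1) => Ω)).sum_comp, Fintype.sum_prod_type]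
    apply Finset.sum_congr rfl
    intro a _
    rw [ih, Finset.mul_sum]
    apply Finset.sum_congr rfl
    intro ω _
    simp only [Fin.consEquiv_apply, Fin.prod_univ_succ, List.ofFn_succ, Fin.cons_zero,
      Fin.cons_succ]
    ring

end Vale.Agent.P321
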