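import Vale.Agent.P321.Main4

/-!
# The main theorem: `T_q(n) ≥ c_q n^(3/2)`
-/

namespace Vale.Agent.P321

open Finset

/-- Sketch: `c = min (1/3) (1/√(K2 q))`.  `n = 0`: the left side is `0`
(`Real.zero_rpow`).  `n = 1, 2`: `m ≥ 1` (`one_le_samples`) and `n^(3/2) ≤ 3` (`rpow_small`).
`n ≥ 3`: `cube_le` and `rpow_le_of_cube_le`. -/
theorem main (q : ℝ) (hq0 : 0 < q) (hq1 : q < 1) :
    ∃ c : ℝ, 0 < c ∧ ∀ (n m : ℕ) (est : List (List Bool) → List.Vector Bool n → ℝ),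
      IsEstimator est → (∀ x, 2 / 3 ≤ successProb q m est x) →
        c * (n : ℝ) ^ ((3 : ℝ) / 2) ≤ m := by
  have hK := K2_pos q hq0 hq1
  have hsK : 0 < Real.sqrt (K2 q) := Real.sqrt_pos.mpr hK
  refine ⟨min (1 / 3) (1 / Real.sqrt (K2 q)), lt_min (by norm_num) (by positivity), ?_⟩
  intro n m est hest hs
  have hpow : 0 ≤ (n : ℝ) ^ ((3 : ℝ) / 2) := Real.rpow_nonneg (Nat.cast_nonneg n) _
  rcases Nat.lt_or_ge n 3 with hn | hn
  · rcases Nat.eq_zero_or_pos n with h0 | h0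
    · subst h0
      have : ((0 : ℕ) : ℝ) ^ ((3 : ℝ) / 2) = 0 := by
        rw [Nat.cast_zero]
        exact Real.zero_rpow (by norm_num)
      rw [this, mul_zero]
      exact Nat.cast_nonneg m
    · have hm : 1 ≤ m := one_le_samples q h0 m est hest hs
      have hm' : (1 : ℝ) ≤ m := by exact_mod_cast hm
      have h3 := rpow_small n (by omega)
      calc min (1 / 3) (1 / Real.sqrt (K2 q)) * (n : ℝ) ^ ((3 : ℝ) / 2)
          ≤ (1 / 3) * (n : ℝ) ^ ((3 : ℝ) / 2) :=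
            mul_le_mul_of_nonneg_right (min_le_left _ _) hpow
        _ ≤ (1 / 3) * 3 := by gcongr
        _ = 1 := by norm_num
        _ ≤ m := hm'
  · have hc := cube_le q hq0 hq1 n m hn est hest hs
    calc min (1 / 3) (1 / Real.sqrt (K2 q)) * (n : ℝ) ^ ((3 : ℝ) / 2)
        ≤ (1 / Real.sqrt (K2 q)) * (n : ℝ) ^ ((3 : ℝ) / 2) :=
          mul_le_mul_of_nonneg_right (min_le_right _ _) hpow
      _ ≤ m := rpow_le_of_cube_le (K2 q) hK n m hc

end Vale.Agent.P321
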