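import Vale.Agent.P321.Token

/-!
# The two hard strings, and elementary facts on estimators
-/

namespace Vale.Agent.P321

open Finset

/-- `(01)^(A-1) 0 (01)^A 0^r`. -/
def strM (A r : ℕ) : List Bool := bg (A - 1) ++ false :: (bg A ++ List.replicate r false)

/-- `(01)^A 0 (01)^(A-1) 0^r`. -/
def strP (A r : ℕ) : List Bool := bg A ++ false :: (bg (A - 1) ++ List.replicate r false)

theorem strM_length (A r : ℕ) (hA : 1 ≤ A) : (strM A r).length = 4 * A - 1 + r := by
  unfold strM
  simp only [List.length_append, List.length_cons, List.length_replicate, bg_length]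
  omega

theorem strP_length (A r : ℕ) (hA : 1 ≤ A) : (strP A r).length = 4 * A - 1 + r := by
  unfold strP
  simp only [List.length_append, List.length_cons, List.length_replicate, bg_length]
  omega

/-- Sketch: write `A = B + 1`; `bg (B+1) = bg B ++ [false, true]` (`bg_append B 1`), cancel
`bg B` (`List.append_cancel_left`); the second remaining bits are `false` (first bit of
`bg (B+1)`) and `true`. -/
theorem strM_ne_strP (A r : ℕ) (hA : 1 ≤ A) : strM A r ≠ strP A r := by
  obtain ⟨B, rfl⟩ : ∃ B, A = B + 1 := ⟨A - 1, by omega⟩
  intro h
  unfold strM strP at h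
  have h1 : bg (B + 1) = bg B ++ bg 1 := (bg_append B 1).symm
  have h2 : B + 1 - 1 = B := by omega
  rw [h2] at h
  have h3 : bg (B + 1) ++ false :: (bg B ++ List.replicate r false)
      = bg B ++ (bg 1 ++ false :: (bg B ++ List.replicate r false)) := by
    rw [h1, List.append_assoc]
  rw [h3] at h
  have h4 := List.append_cancel_left h
  simp [bg] at h4

/-- Two different outputs have total probability at most one
(`Finset.add_le_sum` or `Finset.sum_le_sum_of_subset_of_nonneg` for the pair `{x, y}`). -/
theorem est_pair_le {n : ℕ} (est : List (List Bool) → List.Vector Bool n → ℝ)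
    (h : IsEstimator est) (x y : List.Vector Bool n) (hxy : x ≠ y) (ws : List (List Bool)) :
    est ws x + est ws y ≤ 1 := by
  rw [← h.2 ws]
  exact Finset.add_le_sum (fun i _ => h.1 ws i) (Finset.mem_univ x) (Finset.mem_univ y) hxy

/-- With no sample at all one cannot succeed on two different strings.
Sketch: if `m = 0` then `successProb q 0 est x = est [] x` (unfold), so `est [] x ≥ 2/3` for the
two vectors `List.Vector.replicate n false` and `List.Vector.replicate n true`, which differ as
`n ≥ 1` (compare heads / `toList`); contradiction with `est_pair_le`. -/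
theorem one_le_samples (q : ℝ) {n : ℕ} (hn : 1 ≤ n) (m : ℕ)
    (est : List (List Bool) → List.Vector Bool n → ℝ) (h : IsEstimator est)
    (hs : ∀ x, 2 / 3 ≤ successProb q m est x) : 1 ≤ m := by
  by_contra hm
  have hm0 : m = 0 := by omega
  subst hm0
  have hne : List.Vector.replicate n false ≠ List.Vector.replicate n true := by
    intro he
    have h1 := congrArg (fun v => v.get ⟨0, hn⟩) he
    simp at h1
  have h1 := hs (List.Vector.replicate n false)
  have h2 := hs (List.Vector.replicate n true)
  have h3 := est_pair_le est h _ _ hne []
  unfold successProb samplesExp at h1 h2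
  linarith

end Vale.Agent.P321
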