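import Vale.Agent.P321.Token

namespace Vale.Agent.P321

open Finset

/-- Planting the token `z` after `k` tokens.
Sketch: induction on `k` generalizing `Ψ`.
`k = 0`: the right side is `S q (k'+1) _ = ∑ t, nu q t * S q k' (fun u' => if (t :: u')[0]? = some z
then Ψ (t :: u') else 0)`; the condition is `t = z`; use `Tok.sum_eq`, `S_zero`.
Step: `k + 1 + k' + 1 = (k + k' + 1) + 1`; unfold `S` on both sides; `(t :: w)[k+1]? = w[k]?`;
use the induction hypothesis for `fun w => Ψ (t :: w)` and `Finset.mul_sum`. -/
theorem S_plant (q : ℝ) (k k' : ℕ) (Ψ : List Tok → ℝ) :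
    nu q Tok.z * S q k (fun u => S q k' (fun u' => Ψ (u ++ Tok.z :: u')))
      = S q (k + k' + 1) (fun w => if w[k]? = some Tok.z then Ψ w else 0) := by
  have hsucc : ∀ (j : ℕ) (F : List Tok → ℝ),
      S q (j + 1) F = ∑ t : Tok, nu q t * S q j (fun u => F (t :: u)) := fun _ _ => rfl
  induction k generalizing Ψ with
  | zero =>
    have h0 : 0 + k' + 1 = k' + 1 := by ring
    rw [h0, hsucc, Tok.sum_eq]
    have hz : S q k' (fun u => if (Tok.z :: u)[0]? = some Tok.z then Ψ (Tok.z :: u) else 0)
        = S q k' (fun u' => Ψ (Tok.z :: u')) := by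
      apply S_congr
      intro u
      simp
    have ho : S q k' (fun u => if (Tok.o :: u)[0]? = some Tok.z then Ψ (Tok.o :: u) else 0)
        = 0 := by
      have hf : (fun u : List Tok =>
          if (Tok.o :: u)[0]? = some Tok.z then Ψ (Tok.o :: u) else 0) = fun _ => 0 := by
        funext u
        simp
      rw [hf, S_zero]
    have hzo : S q k' (fun u => if (Tok.zo :: u)[0]? = some Tok.z then Ψ (Tok.zo :: u) else 0)
        = 0 := by
      have hf : (fun u : List Tok =>
          if (Tok.zo :: u)[0]? = some Tok.z then Ψ (Tok.zo :: u) else 0) = fun _ => 0 := by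
        funext u
        simp
      rw [hf, S_zero]
    rw [hz, ho, hzo]
    simp only [S, List.nil_append]
    ring
  | succ k ih =>
    have h1 : k + 1 + k' + 1 = (k + k' + 1) + 1 := by ring
    rw [h1, hsucc, hsucc, Finset.mul_sum]
    refine Finset.sum_congr rfl (fun t _ => ?_)
    have hih := ih (fun w => Ψ (t :: w))
    have hR : S q (k + k' + 1)
        (fun u => if (t :: u)[k + 1]? = some Tok.z then Ψ (t :: u) else 0)
        = S q (k + k' + 1) (fun w => if w[k]? = some Tok.z then Ψ (t :: w) else 0) := by
      apply S_congr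
      intro u
      simp
    rw [hR, ← hih]
    simp only [List.cons_append]
    ring

end Vale.Agent.P321
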