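import Mathlib

namespace Vale.Agent.P321

open Finset

/-- Re-indexing a double sum by the total `L = k + k'`; the binomial coefficients vanish outside
the rectangle.
Sketch: both sides equal the sum over pairs `(k, k')` with `k + k' ≤ a + b` of
`C(a,k) C(b,k') f k k'`.  For instance: extend the left side to `range (a+b+1) ×ˢ range (a+b+1)`
(the new terms vanish by `Nat.choose_eq_zero_of_lt`), drop the pairs with `k + k' > a + b` (then
`k > a` or `k' > b`), and use `Finset.Nat.sum_antidiagonal_eq_sum_range_succ_mk` together with
`Finset.sum_sigma'` / `Finset.sum_bij'` for the right side. -/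
theorem sum_range_range_choose (a b : ℕ) (f : ℕ → ℕ → ℝ) :
    ∑ k ∈ range (a + 1), ∑ k' ∈ range (b + 1),
        (a.choose k : ℝ) * (b.choose k' : ℝ) * f k k'
      = ∑ L ∈ range (a + b + 1), ∑ k ∈ range (L + 1),
        (a.choose k : ℝ) * (b.choose (L - k) : ℝ) * f k (L - k) := by
  rw [Finset.sum_range_diag_flip (a + b + 1)
    (fun k k' => (a.choose k : ℝ) * (b.choose k' : ℝ) * f k k')]
  have h1 : range (a + 1) ⊆ range (a + b + 1) := by
    apply Finset.range_subset_range.2
    omega
  rw [← Finset.sum_subset h1]
  · apply Finset.sum_congr rfl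
    intro k hk
    have hk' : k < a + 1 := Finset.mem_range.1 hk
    have h2 : range (b + 1) ⊆ range (a + b + 1 - k) := by
      apply Finset.range_subset_range.2
      omega
    apply Finset.sum_subset h2
    intro j _ hj
    have hj' : b < j := by
      have := Finset.mem_range.not.1 hj
      omega
    rw [Nat.choose_eq_zero_of_lt hj']
    simp
  · intro k _ hk
    have hk' : a < k := by
      have := Finset.mem_range.not.1 hk
      omega
    apply Finset.sum_eq_zero
    intro j _
    rw [Nat.choose_eq_zero_of_lt hk']
    simp

end Vale.Agent.P321
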