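import Vale.Agent.P321.TokBg
import Vale.Agent.P321.TokPlant
import Vale.Agent.P321.TokReindex

namespace Vale.Agent.P321

open Finset

/-- The trace of `(01)^a 0 (01)^b pad` in terms of tokens.
Sketch.  Put `Ψ w = traceExp q pad (fun t => φ (flatL w ++ t))`.
(1) `traceExp_bg_append q a (false :: (bg b ++ pad)) φ`, then `traceExp_cons` inside:
the inner expectation is `q * E₀ u + (1-q) * E₁ u` with
`E₀ u = traceExp q (bg b ++ pad) (fun v => φ (flatL u ++ v))`,
`E₁ u = traceExp q (bg b ++ pad) (fun v => φ (flatL u ++ false :: v))`.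
(2) By linearity of `S` (`S_add`, `S_const_mul`) the `E₀` part is
`q * traceExp q (bg a ++ (bg b ++ pad)) φ` (`traceExp_bg_append` backwards), and
`bg a ++ (bg b ++ pad) = bg (a + b) ++ pad` (`bg_append`).
(3) `E₁ u = ∑ k', C(b,k') q^(2(b-k')) S q k' (fun u' => Ψ (u ++ Tok.z :: u'))` by
`traceExp_bg_append` and `flatL_append` (`flatL (u ++ z :: u') = flatL u ++ false :: flatL u'`).
(4) Pull the sums out of `S q k` (`S_sum`, `S_const_mul`), use `S_plant`
(`nu q Tok.z = (1-q) q`, so `(1-q) * X = (1/q) * (nu q z * X)`), then `sum_range_range_choose` with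
`f k k' = q^(2(a-k)) q^(2(b-k')) S q (k+k'+1) (fun w => if w[k]? = some z then Ψ w else 0)`;
for `k ≤ L`, `k ≤ a`, `L - k ≤ b`: `q^(2(a-k)) q^(2(b-(L-k))) = q^(2(a+b-L))` (when `k > a` or
`L - k > b` the binomial coefficient vanishes), and `k + (L-k) + 1 = L + 1`.
(5) Put the sum over `k` back inside `S q (L+1)` (`S_sum`, `S_const_mul`). -/
theorem traceExp_defect (q : ℝ) (hq0 : 0 < q) (hq1 : q < 1) (a b : ℕ) (pad : List Bool)
    (φ : List Bool → ℝ) :
    traceExp q (bg a ++ false :: (bg b ++ pad)) φ
      = q * traceExp q (bg (a + b) ++ pad) φ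
        + (1 / q) * ∑ L ∈ range (a + b + 1), q ^ (2 * (a + b - L))
          * S q (L + 1) (fun w =>
              (∑ k ∈ range (L + 1), (a.choose k : ℝ) * (b.choose (L - k) : ℝ)
                  * (if w[k]? = some Tok.z then 1 else 0))
                * traceExp q pad (fun t => φ (flatL w ++ t))) := by
  have hqne : q ≠ 0 := hq0.ne'
  set Ψ : List Tok → ℝ := fun w => traceExp q pad (fun t => φ (flatL w ++ t)) with hΨ
  -- the planted sums
  set P : ℕ → ℕ → ℝ := fun n k => S q n (fun w => if w[k]? = some Tok.z then Ψ w else 0) with hP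
  -- step (3)
  have hE1 : ∀ u : List Tok,
      traceExp q (bg b ++ pad) (fun v => φ (flatL u ++ false :: v))
        = ∑ k' ∈ range (b + 1), (b.choose k' : ℝ) * q ^ (2 * (b - k'))
            * S q k' (fun u' => Ψ (u ++ Tok.z :: u')) := by
    intro u
    rw [traceExp_bg_append]
    refine Finset.sum_congr rfl ?_
    intro k' _
    congr 1
    refine S_congr q k' ?_
    intro u'
    simp only [hΨ]
    refine traceExp_congr q pad ?_
    intro v
    rw [flatL_append]
    simp [flatL, Tok.flat, List.append_assoc]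
  -- step (4a)
  have hS1 : ∀ k : ℕ,
      (1 - q) * S q k (fun u => traceExp q (bg b ++ pad) (fun v => φ (flatL u ++ false :: v)))
        = (1 / q) * ∑ k' ∈ range (b + 1), (b.choose k' : ℝ) * q ^ (2 * (b - k'))
            * P (k + k' + 1) k := by
    intro k
    rw [S_congr q k hE1, S_sum, Finset.mul_sum, Finset.mul_sum]
    refine Finset.sum_congr rfl ?_
    intro k' _
    rw [S_const_mul]
    have hpl := S_plant q k k' Ψ
    simp only [hP]
    rw [← hpl]
    simp only [nu]
    field_simp
  -- step (1), (2)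
  have hmain : traceExp q (bg a ++ false :: (bg b ++ pad)) φ
      = q * traceExp q (bg a ++ (bg b ++ pad)) φ
        + (1 / q) * ∑ k ∈ range (a + 1), ∑ k' ∈ range (b + 1),
            (a.choose k : ℝ) * (b.choose k' : ℝ)
              * (q ^ (2 * (a - k)) * q ^ (2 * (b - k')) * P (k + k' + 1) k) := by
    rw [traceExp_bg_append q a (false :: (bg b ++ pad)) φ,
      traceExp_bg_append q a (bg b ++ pad) φ, Finset.mul_sum, Finset.mul_sum,
      ← Finset.sum_add_distrib]
    refine Finset.sum_congr rfl ?_
    intro k _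
    have h1 : S q k (fun u => traceExp q (false :: (bg b ++ pad)) (fun v => φ (flatL u ++ v)))
        = q * S q k (fun u => traceExp q (bg b ++ pad) (fun v => φ (flatL u ++ v)))
          + (1 - q) * S q k (fun u => traceExp q (bg b ++ pad)
              (fun v => φ (flatL u ++ false :: v))) := by
      rw [← S_const_mul, ← S_const_mul, ← S_add]
      refine S_congr q k ?_
      intro u
      rw [traceExp_cons]
    rw [h1, hS1 k, Finset.mul_sum, Finset.mul_sum, mul_add, Finset.mul_sum]
    congr 1
    · ring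
    · refine Finset.sum_congr rfl ?_
      intro k' _
      ring
  rw [hmain, ← List.append_assoc, bg_append,
    sum_range_range_choose a b
      (fun k k' => q ^ (2 * (a - k)) * q ^ (2 * (b - k')) * P (k + k' + 1) k)]
  congr 2
  refine Finset.sum_congr rfl ?_
  intro L hL
  have hL' : L ≤ a + b := Nat.lt_succ_iff.mp (Finset.mem_range.mp hL)
  have h5 : S q (L + 1) (fun w =>
      (∑ k ∈ range (L + 1), (a.choose k : ℝ) * (b.choose (L - k) : ℝ)
          * (if w[k]? = some Tok.z then 1 else 0)) * Ψ w)
      = ∑ k ∈ range (L + 1), (a.choose k : ℝ) * (b.choose (L - k) : ℝ) * P (L + 1) k := by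
    simp only [hP]
    rw [Finset.sum_congr rfl (fun k _ => (S_const_mul q (L + 1)
      ((a.choose k : ℝ) * (b.choose (L - k) : ℝ))
      (fun w => if w[k]? = some Tok.z then Ψ w else 0)).symm), ← S_sum]
    refine S_congr q (L + 1) ?_
    intro w
    rw [Finset.sum_mul]
    refine Finset.sum_congr rfl ?_
    intro k _
    split_ifs <;> ring
  rw [h5, Finset.mul_sum]
  refine Finset.sum_congr rfl ?_
  intro k hk
  have hk' : k ≤ L := Nat.lt_succ_iff.mp (Finset.mem_range.mp hk)
  by_cases hka : a < k
  · rw [Nat.choose_eq_zero_of_lt hka]; simp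
  by_cases hkb : b < L - k
  · rw [Nat.choose_eq_zero_of_lt hkb]; simp
  have e1 : k + (L - k) + 1 = L + 1 := by omega
  have e2 : 2 * (a + b - L) = 2 * (a - k) + 2 * (b - (L - k)) := by omega
  simp only [e1]
  rw [e2, pow_add]
  ring

end Vale.Agent.P321
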