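import Vale.Agent.P321.Token

namespace Vale.Agent.P321

open Finset

/-- `S` as a sum over functions `Fin k → Tok`.
Sketch: induction on `k` generalizing `F`; re-index `Fin (k+1) → Tok` as `Tok × (Fin k → Tok)` with
`Fin.consEquiv`, `Fin.prod_univ_succ`, `List.ofFn_succ`, `Fintype.sum_prod_type`,
`Finset.mul_sum`. -/
theorem S_eq_pi (q : ℝ) (k : ℕ) (F : List Tok → ℝ) :
    S q k F = ∑ z : Fin k → Tok, (∏ j, nu q (z j)) * F (List.ofFn z) := by
  induction k generalizing F with
  | zero =>
    simp [S]
  | succ k ih =>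
    have h1 : S q (k + 1) F = ∑ t : Tok, nu q t * S q k (fun u => F (t :: u)) := rfl
    rw [h1]
    rw [← (Fin.consEquiv (fun _ : Fin (k + 1) => Tok)).sum_comp, Fintype.sum_prod_type]
    refine Finset.sum_congr rfl fun t _ => ?_
    rw [ih, Finset.mul_sum]
    refine Finset.sum_congr rfl fun z _ => ?_
    simp only [Fin.consEquiv_apply, Fin.prod_univ_succ, List.ofFn_succ, Fin.cons_zero,
      Fin.cons_succ]
    ring

end Vale.Agent.P321
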