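import Vale.Agent.P321.Rep
import Vale.Agent.P321.TokPi
import Vale.Agent.P321.TokDefect

namespace Vale.Agent.P321

open Finset

/-- The enriched experiment represents the law of one trace.
Sketch: `subst h`; `traceExp_defect`; `sum_Om`; the left summand is `traceExp_eq_idx` for
`bg (a+b) ++ pad` (times `q`); for the right summand use `Fin.sum_univ_eq_sum_range` (sum over
`L : Fin (N+1)` versus `range (N+1)`), `S_eq_pi`, `Dw_eq_list`, `traceExp_eq_idx` for `pad`,
`Finset.mul_sum` and `ring`. -/
theorem rep (q : ℝ) (hq0 : 0 < q) (hq1 : q < 1) (a b N : ℕ) (h : a + b = N) (pad : List Bool)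
    (φ : List Bool → ℝ) :
    traceExp q (bg a ++ false :: (bg b ++ pad)) φ
      = ∑ ω, PP q N pad a b ω * φ (gg N pad ω) := by
  subst h
  rw [traceExp_defect q hq0 hq1 a b pad φ, sum_Om]
  congr 1
  · rw [traceExp_eq_idx, Finset.mul_sum]
    refine Finset.sum_congr rfl fun i _ => ?_
    simp only [PP, gg]
    ring
  · rw [← Fin.sum_univ_eq_sum_range (fun L => q ^ (2 * (a + b - L))
          * S q (L + 1) (fun w =>
              (∑ k ∈ range (L + 1), (a.choose k : ℝ) * (b.choose (L - k) : ℝ)
                  * (if w[k]? = some Tok.z then 1 else 0))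
                * traceExp q pad (fun t => φ (flatL w ++ t)))) (a + b + 1), Finset.mul_sum]
    refine Finset.sum_congr rfl fun L _ => ?_
    rw [S_eq_pi, Finset.mul_sum, Finset.mul_sum]
    refine Finset.sum_congr rfl fun z _ => ?_
    rw [Dw_eq_list, traceExp_eq_idx, Finset.mul_sum, Finset.mul_sum, Finset.mul_sum,
      Finset.mul_sum]
    refine Finset.sum_congr rfl fun i _ => ?_
    simp only [PP, gg]
    ring

theorem PP_sum (q : ℝ) (hq0 : 0 < q) (hq1 : q < 1) (a b N : ℕ) (h : a + b = N)
    (pad : List Bool) : ∑ ω, PP q N pad a b ω = 1 := by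
  have := rep q hq0 hq1 a b N h pad (fun _ => 1)
  rw [traceExp_one] at this
  simpa using this.symm

end Vale.Agent.P321
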