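import Vale.Agent.P321.Rep

namespace Vale.Agent.P321

open Finset

/-- For `c ≥ 0`: `(c x - c y)^2 / (c x + c y) = c ((x - y)^2 / (x + y))` (also when `c = 0` or
`x + y = 0`, since division by zero is zero). -/
theorem scale_ratio (c x y : ℝ) :
    (c * x - c * y) ^ 2 / (c * x + c * y) = c * ((x - y) ^ 2 / (x + y)) := by
  by_cases hc : c = 0
  · subst hc; simp
  by_cases hxy : x + y = 0
  · have h1 : c * x + c * y = 0 := by rw [← mul_add, hxy, mul_zero]
    rw [h1, hxy]; simp
  · have h1 : c * x + c * y ≠ 0 := by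
      rw [← mul_add]; exact mul_ne_zero hc hxy
    field_simp

/-- The triangular discrimination of two enriched experiments.
Sketch: `sum_Om`; on the left summand the two weights agree, so the terms vanish; on the right
summand use `scale_ratio` with `c = (1/q) q^(2(N-L)) (∏ nu) idxWt`, sum over `i` with `idxWt_sum`,
and `Fin.sum_univ_eq_sum_range`. -/
theorem delta_Om (q : ℝ) (hq0 : 0 < q) (hq1 : q < 1) (N : ℕ) (pad : List Bool)
    (a b a' b' : ℕ) :
    ∑ ω, (PP q N pad a b ω - PP q N pad a' b' ω) ^ 2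
        / (PP q N pad a b ω + PP q N pad a' b' ω)
      = (1 / q) * ∑ L ∈ range (N + 1), q ^ (2 * (N - L))
          * ∑ z : Fin (L + 1) → Tok, (∏ j, nu q (z j))
            * ((Dw a b L z - Dw a' b' L z) ^ 2 / (Dw a b L z + Dw a' b' L z)) := by
  rw [sum_Om]
  have hleft : ∑ i : Idx (bg N ++ pad),
      (PP q N pad a b (.inl i) - PP q N pad a' b' (.inl i)) ^ 2
        / (PP q N pad a b (.inl i) + PP q N pad a' b' (.inl i)) = 0 := by
    apply Finset.sum_eq_zero
    intro i _
    simp [PP]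
  rw [hleft, zero_add]
  rw [← Fin.sum_univ_eq_sum_range (fun L => q ^ (2 * (N - L))
          * ∑ z : Fin (L + 1) → Tok, (∏ j, nu q (z j))
            * ((Dw a b L z - Dw a' b' L z) ^ 2 / (Dw a b L z + Dw a' b' L z))) (N + 1)]
  rw [Finset.mul_sum]
  apply Finset.sum_congr rfl
  intro L _
  rw [Finset.mul_sum, Finset.mul_sum]
  apply Finset.sum_congr rfl
  intro z _
  have hterm : ∀ i : Idx pad,
      (PP q N pad a b (.inr (⟨L, z⟩, i)) - PP q N pad a' b' (.inr (⟨L, z⟩, i))) ^ 2
        / (PP q N pad a b (.inr (⟨L, z⟩, i)) + PP q N pad a' b' (.inr (⟨L, z⟩, i)))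
      = idxWt q pad i * ((1 / q) * (q ^ (2 * (N - L.1)) * ((∏ j, nu q (z j))
            * ((Dw a b L.1 z - Dw a' b' L.1 z) ^ 2 / (Dw a b L.1 z + Dw a' b' L.1 z))))) := by
    intro i
    have e1 : PP q N pad a b (.inr (⟨L, z⟩, i))
        = ((1 / q) * q ^ (2 * (N - L.1)) * (∏ j, nu q (z j)) * idxWt q pad i) * Dw a b L.1 z := by
      simp only [PP]; ring
    have e2 : PP q N pad a' b' (.inr (⟨L, z⟩, i))
        = ((1 / q) * q ^ (2 * (N - L.1)) * (∏ j, nu q (z j)) * idxWt q pad i) * Dw a' b' L.1 z := by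
      simp only [PP]; ring
    rw [e1, e2, scale_ratio]
    ring
  rw [Finset.sum_congr rfl (fun i _ => hterm i), ← Finset.sum_mul, idxWt_sum, one_mul]

end Vale.Agent.P321
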