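import Mathlib

/-!
# Total variation versus Bhattacharyya coefficient
-/

namespace Vale.Agent.P321

open Finset

/-- A test with values in `[0,1]` separates two probability vectors by at most
`sqrt (1 - BC ^ 2)`.
Sketch: with `Ψ' = Ψ - 1/2` (values in `[-1/2,1/2]`) the difference is `∑ (a - b) Ψ'`, so its
absolute value is at most `(1/2) ∑ |a - b|`.  Write `|a - b| = |√a - √b| (√a + √b)` and use
Cauchy-Schwarz (`Finset.sum_mul_sq_le_sq_mul_sq`):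
`(∑ |a - b|)^2 ≤ (∑ (√a - √b)^2) (∑ (√a + √b)^2) = (2 - 2 B) (2 + 2 B) = 4 (1 - B^2)`
where `B = ∑ √(a b)`, `√(a b) = √a √b`. -/
theorem gap_sq_le {Λ : Type*} [Fintype Λ] (a b : Λ → ℝ) (ha : ∀ x, 0 ≤ a x) (hb : ∀ x, 0 ≤ b x)
    (ha1 : ∑ x, a x = 1) (hb1 : ∑ x, b x = 1) (Ψ : Λ → ℝ) (h0 : ∀ x, 0 ≤ Ψ x)
    (h1 : ∀ x, Ψ x ≤ 1) :
    (∑ x, a x * Ψ x - ∑ x, b x * Ψ x) ^ 2 ≤ 1 - (∑ x, Real.sqrt (a x * b x)) ^ 2 := by
  obtain ⟨u, hu⟩ : ∃ u : Λ → ℝ, u = fun x => Real.sqrt (a x) := ⟨_, rfl⟩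
  obtain ⟨v, hv⟩ : ∃ v : Λ → ℝ, v = fun x => Real.sqrt (b x) := ⟨_, rfl⟩
  have hua : ∀ x, u x ^ 2 = a x := fun x => by rw [hu]; exact Real.sq_sqrt (ha x)
  have hvb : ∀ x, v x ^ 2 = b x := fun x => by rw [hv]; exact Real.sq_sqrt (hb x)
  have hB : ∀ x, Real.sqrt (a x * b x) = u x * v x := fun x => by
    rw [hu, hv]; exact Real.sqrt_mul (ha x) _
  obtain ⟨B, hBdef⟩ : ∃ B : ℝ, B = ∑ x, u x * v x := ⟨_, rfl⟩
  have hBsum : ∑ x, Real.sqrt (a x * b x) = B := by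
    rw [hBdef]; exact Finset.sum_congr rfl (fun x _ => hB x)
  have hD : ∑ x, a x * Ψ x - ∑ x, b x * Ψ x
      = ∑ x, (u x - v x) * ((u x + v x) * (Ψ x - 1 / 2)) := by
    have e : ∑ x, (u x - v x) * ((u x + v x) * (Ψ x - 1 / 2))
        = ∑ x, (a x * Ψ x - b x * Ψ x - (a x / 2 - b x / 2)) := by
      apply Finset.sum_congr rfl
      intro x _
      rw [← hua x, ← hvb x]; ring
    rw [e, Finset.sum_sub_distrib, Finset.sum_sub_distrib, Finset.sum_sub_distrib,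
      ← Finset.sum_div, ← Finset.sum_div, ha1, hb1]
    ring
  have cs := Finset.sum_mul_sq_le_sq_mul_sq Finset.univ (fun x => u x - v x)
    (fun x => (u x + v x) * (Ψ x - 1 / 2))
  have h2 : ∑ x, ((u x + v x) * (Ψ x - 1 / 2)) ^ 2 ≤ ∑ x, (u x + v x) ^ 2 / 4 := by
    apply Finset.sum_le_sum
    intro x _
    have e1 : (Ψ x - 1 / 2) ^ 2 ≤ 1 / 4 := by nlinarith [h0 x, h1 x]
    have e2 : 0 ≤ (u x + v x) ^ 2 := sq_nonneg _
    rw [mul_pow]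
    nlinarith
  have e1 : ∑ x, (u x - v x) ^ 2 = 2 - 2 * B := by
    have e : ∑ x, (u x - v x) ^ 2 = ∑ x, (a x + b x - 2 * (u x * v x)) := by
      apply Finset.sum_congr rfl
      intro x _
      rw [← hua x, ← hvb x]; ring
    rw [e, Finset.sum_sub_distrib, Finset.sum_add_distrib, ← Finset.mul_sum, ha1, hb1, ← hBdef]
    ring
  have e2 : ∑ x, (u x + v x) ^ 2 / 4 = (2 + 2 * B) / 4 := by
    have e : ∑ x, (u x + v x) ^ 2 / 4 = (∑ x, (a x + b x + 2 * (u x * v x))) / 4 := by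
      rw [Finset.sum_div]
      apply Finset.sum_congr rfl
      intro x _
      rw [← hua x, ← hvb x]; ring
    rw [e, Finset.sum_add_distrib, Finset.sum_add_distrib, ← Finset.mul_sum, ha1, hb1, ← hBdef]
    ring
  have h3 : 0 ≤ 2 - 2 * B := by
    rw [← e1]; exact Finset.sum_nonneg (fun x _ => sq_nonneg _)
  rw [hD, hBsum]
  calc (∑ x, (u x - v x) * ((u x + v x) * (Ψ x - 1 / 2))) ^ 2
      ≤ (∑ x, (u x - v x) ^ 2) * ∑ x, ((u x + v x) * (Ψ x - 1 / 2)) ^ 2 := cs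
    _ ≤ (2 - 2 * B) * ((2 + 2 * B) / 4) := by
        rw [e1]
        exact mul_le_mul_of_nonneg_left (h2.trans_eq e2) h3
    _ = 1 - B ^ 2 := by ring

end Vale.Agent.P321
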