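import Mathlib

/-!
# Bhattacharyya coefficient versus triangular discrimination
-/

namespace Vale.Agent.P321

open Finset

/-- Pointwise comparison. -/
theorem sqrt_sub_sq_le (x y : ℝ) (hx : 0 ≤ x) (hy : 0 ≤ y) :
    x + y - 2 * Real.sqrt (x * y) ≤ (x - y) ^ 2 / (x + y) := by
  rcases eq_or_lt_of_le (add_nonneg hx hy) with h | h
  · have hx0 : x = 0 := by linarith
    have hy0 : y = 0 := by linarith
    subst hx0; subst hy0; simp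
  · rw [le_div_iff₀ h]
    set a := Real.sqrt x with ha
    set b := Real.sqrt y with hb
    have ha0 : 0 ≤ a := Real.sqrt_nonneg x
    have hb0 : 0 ≤ b := Real.sqrt_nonneg y
    have hxa : x = a ^ 2 := (Real.sq_sqrt hx).symm
    have hyb : y = b ^ 2 := (Real.sq_sqrt hy).symm
    have hab : Real.sqrt (x * y) = a * b := Real.sqrt_mul hx y
    rw [hab, hxa, hyb]
    have : (a ^ 2 - b ^ 2) ^ 2 - (a ^ 2 + b ^ 2 - 2 * (a * b)) * (a ^ 2 + b ^ 2)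
        = (a - b) ^ 2 * (2 * (a * b)) := by ring
    have h2 : 0 ≤ (a - b) ^ 2 * (2 * (a * b)) := by positivity
    linarith

/-- `1 - BC` is at most half the triangular discrimination. -/
theorem one_sub_bc_le {Ω : Type*} [Fintype Ω] (P Q : Ω → ℝ) (hP : ∀ ω, 0 ≤ P ω)
    (hQ : ∀ ω, 0 ≤ Q ω) (hP1 : ∑ ω, P ω = 1) (hQ1 : ∑ ω, Q ω = 1) :
    1 - ∑ ω, Real.sqrt (P ω * Q ω) ≤ (1 / 2) * ∑ ω, (P ω - Q ω) ^ 2 / (P ω + Q ω) := by
  have h : ∑ ω, (P ω + Q ω - 2 * Real.sqrt (P ω * Q ω))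
      ≤ ∑ ω, (P ω - Q ω) ^ 2 / (P ω + Q ω) :=
    Finset.sum_le_sum (fun ω _ => sqrt_sub_sq_le (P ω) (Q ω) (hP ω) (hQ ω))
  rw [Finset.sum_sub_distrib, Finset.sum_add_distrib, hP1, hQ1, ← Finset.mul_sum] at h
  linarith

/-- The Bhattacharyya coefficient is at most one (`√(P Q) ≤ (P + Q) / 2`). -/
theorem bc_le_one {Ω : Type*} [Fintype Ω] (P Q : Ω → ℝ) (hP : ∀ ω, 0 ≤ P ω)
    (hQ : ∀ ω, 0 ≤ Q ω) (hP1 : ∑ ω, P ω = 1) (hQ1 : ∑ ω, Q ω = 1) :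
    ∑ ω, Real.sqrt (P ω * Q ω) ≤ 1 := by
  have h : ∑ ω, Real.sqrt (P ω * Q ω) ≤ ∑ ω, (P ω + Q ω) / 2 := by
    refine Finset.sum_le_sum (fun ω _ => ?_)
    have ha0 : 0 ≤ Real.sqrt (P ω) := Real.sqrt_nonneg _
    have hb0 : 0 ≤ Real.sqrt (Q ω) := Real.sqrt_nonneg _
    have hxa : Real.sqrt (P ω) ^ 2 = P ω := Real.sq_sqrt (hP ω)
    have hyb : Real.sqrt (Q ω) ^ 2 = Q ω := Real.sq_sqrt (hQ ω)
    rw [Real.sqrt_mul (hP ω)]
    nlinarith [sq_nonneg (Real.sqrt (P ω) - Real.sqrt (Q ω))]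
  rw [← Finset.sum_div, Finset.sum_add_distrib, hP1, hQ1] at h
  linarith

end Vale.Agent.P321
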