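import Vale.Agent.P321.Tensor1
import Vale.Agent.P321.Tensor2
import Vale.Agent.P321.Tensor3

/-!
# Two-point method on finite probability spaces (Hellinger tensorisation)
-/

namespace Vale.Agent.P321

open Finset

/-- Two-point lower bound: if a `[0,1]`-valued test on `m` independent samples separates `P` and
`Q` by `1/3`, then `m` times the triangular discrimination is at least `1/9`.
Sketch: apply `gap_sq_le` on `Λ = Fin m → Ω` with `a ω = ∏ P (ω j)`, `b ω = ∏ Q (ω j)`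
(`prod_sum_one`, `Finset.prod_nonneg`) and `bc_pow`: `1/9 ≤ 1 - B^(2m)`, `B = ∑ √(P Q) ∈ [0,1]`.
Let `D` be the discrimination; `B ≥ 1 - D/2` by `one_sub_bc_le`.  Suppose `9 m D < 1`.  Then
`h = D/2 < 1`, `B^(2m) ≥ (1-h)^(2m) ≥ 1 - 2 m h` (Bernoulli, `one_add_mul_le_pow`) `> 8/9`,
contradiction. -/
theorem two_point {Ω : Type*} [Fintype Ω] (P Q : Ω → ℝ) (hP : ∀ ω, 0 ≤ P ω) (hQ : ∀ ω, 0 ≤ Q ω)
    (hP1 : ∑ ω, P ω = 1) (hQ1 : ∑ ω, Q ω = 1) (m : ℕ) (Ψ : (Fin m → Ω) → ℝ)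
    (h0 : ∀ ω, 0 ≤ Ψ ω) (h1 : ∀ ω, Ψ ω ≤ 1)
    (hgap : 1 / 3 ≤ ∑ ω : Fin m → Ω, (∏ j, P (ω j)) * Ψ ω
      - ∑ ω : Fin m → Ω, (∏ j, Q (ω j)) * Ψ ω) :
    1 ≤ 9 * (m : ℝ) * ∑ ω, (P ω - Q ω) ^ 2 / (P ω + Q ω) := by
  set D : ℝ := ∑ ω, (P ω - Q ω) ^ 2 / (P ω + Q ω) with hD
  set B : ℝ := ∑ ω, Real.sqrt (P ω * Q ω) with hB
  have hD0 : 0 ≤ D := Finset.sum_nonneg (fun ω _ =>
    div_nonneg (sq_nonneg _) (add_nonneg (hP ω) (hQ ω)))
  have hB0 : 0 ≤ B := Finset.sum_nonneg (fun ω _ => Real.sqrt_nonneg _)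
  have hBD : 1 - B ≤ (1 / 2) * D := one_sub_bc_le P Q hP hQ hP1 hQ1
  have hg := gap_sq_le (fun ω : Fin m → Ω => ∏ j, P (ω j)) (fun ω : Fin m → Ω => ∏ j, Q (ω j))
    (fun ω => Finset.prod_nonneg (fun j _ => hP (ω j)))
    (fun ω => Finset.prod_nonneg (fun j _ => hQ (ω j)))
    (prod_sum_one P hP1 m) (prod_sum_one Q hQ1 m) Ψ h0 h1
  rw [bc_pow P Q hP hQ m] at hg
  have hsq : (1 / 3 : ℝ) ^ 2 ≤ (∑ ω : Fin m → Ω, (∏ j, P (ω j)) * Ψ ω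
      - ∑ ω : Fin m → Ω, (∏ j, Q (ω j)) * Ψ ω) ^ 2 := pow_le_pow_left₀ (by norm_num) hgap 2
  have h3 : (B ^ m) ^ 2 ≤ 8 / 9 := by
    have := hsq.trans hg
    norm_num at this ⊢
    linarith
  by_contra hcon
  rw [not_le] at hcon
  have hm0 : (0 : ℝ) ≤ m := Nat.cast_nonneg m
  have hmpos : 0 < m := by
    rcases Nat.eq_zero_or_pos m with hm | hm
    · subst hm
      norm_num at h3
    · exact hm
  have hbern : 1 + ((2 * m : ℕ) : ℝ) * (-(D / 2)) ≤ (1 + -(D / 2)) ^ (2 * m) := by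
    apply one_add_mul_le_pow
    have hm1 : (1 : ℝ) ≤ m := by exact_mod_cast hmpos
    nlinarith
  have hle : (1 + -(D / 2)) ^ (2 * m) ≤ B ^ (2 * m) := by
    rcases Nat.eq_zero_or_pos m with hm | hm
    · subst hm; simp
    · have hm1 : (1 : ℝ) ≤ m := by exact_mod_cast hm
      apply pow_le_pow_left₀
      · nlinarith
      · linarith
  have hpow : B ^ (2 * m) = (B ^ m) ^ 2 := by
    rw [← pow_mul, mul_comm]
  rw [hpow] at hle
  push_cast at hbern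
  nlinarith

end Vale.Agent.P321
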