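import Vale.Agent.P321.Main1
import Vale.Agent.P321.Tensor
import Vale.Agent.P321.Iter
import Vale.Agent.P321.Rep2
import Vale.Agent.P321.Rep3
import Vale.Agent.P321.Del1

/-!
# Two-point bound for the two hard strings
-/

namespace Vale.Agent.P321

open Finset

/-- If two tests `ψ₁, ψ₂ ≥ 0` with `ψ₁ + ψ₂ ≤ 1` recognise the two strings from `m` traces with
probability `2/3` each, then `m * (1/q) * DeltaA ≥ 1/9`.
Sketch: `N = 2A-1`, `pad = replicate r false`, `P = PP q N pad (A-1) A`, `Q = PP q N pad A (A-1)`,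
`g = gg N pad`.  `rep` (with `A - 1 + A = N`, `A + (A-1) = N`) and `samplesExp_eq_pi` turn the
hypotheses into `2/3 ≤ ∑ ω, (∏ P) Ψ₁ ω` and `2/3 ≤ ∑ ω, (∏ Q) Ψ₂ ω`, with
`Ψᵢ ω = ψᵢ (List.ofFn (fun j => g (ω j)))`.  Since `Ψ₁ ≤ 1 - Ψ₂`, `∏ Q ≥ 0` and
`∑ ω, ∏ Q = 1` (`prod_sum_one`, `PP_sum`): `∑ (∏ Q) Ψ₁ ≤ 1 - 2/3`.  Apply `two_point P Q .. m Ψ₁`
and rewrite the discrimination with `delta_Om`; the result is `(1/q) * DeltaA q A` by definition. -/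
theorem two_strings_bound (q : ℝ) (hq0 : 0 < q) (hq1 : q < 1) (A : ℕ) (hA : 1 ≤ A) (r m : ℕ)
    (ψ₁ ψ₂ : List (List Bool) → ℝ) (h1 : ∀ ws, 0 ≤ ψ₁ ws) (h2 : ∀ ws, 0 ≤ ψ₂ ws)
    (h12 : ∀ ws, ψ₁ ws + ψ₂ ws ≤ 1)
    (hM : 2 / 3 ≤ samplesExp q (strM A r) m ψ₁) (hP : 2 / 3 ≤ samplesExp q (strP A r) m ψ₂) :
    1 ≤ 9 * (m : ℝ) * ((1 / q) * DeltaA q A) := by
  set N : ℕ := 2 * A - 1 with hN
  set pad : List Bool := List.replicate r false with hpad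
  have hab : A - 1 + A = N := by omega
  have hba : A + (A - 1) = N := by omega
  set P : Om N pad → ℝ := PP q N pad (A - 1) A with hPdef
  set Q : Om N pad → ℝ := PP q N pad A (A - 1) with hQdef
  have hP0 : ∀ ω, 0 ≤ P ω := PP_nonneg q hq0 hq1 N pad (A - 1) A
  have hQ0 : ∀ ω, 0 ≤ Q ω := PP_nonneg q hq0 hq1 N pad A (A - 1)
  have hP1 : ∑ ω, P ω = 1 := PP_sum q hq0 hq1 (A - 1) A N hab pad
  have hQ1 : ∑ ω, Q ω = 1 := PP_sum q hq0 hq1 A (A - 1) N hba pad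
  have hrepM : ∀ φ, traceExp q (strM A r) φ = ∑ ω, P ω * φ (gg N pad ω) :=
    fun φ => rep q hq0 hq1 (A - 1) A N hab pad φ
  have hrepP : ∀ φ, traceExp q (strP A r) φ = ∑ ω, Q ω * φ (gg N pad ω) :=
    fun φ => rep q hq0 hq1 A (A - 1) N hba pad φ
  rw [samplesExp_eq_pi q (strM A r) P (gg N pad) hrepM m ψ₁] at hM
  rw [samplesExp_eq_pi q (strP A r) Q (gg N pad) hrepP m ψ₂] at hP
  set Ψ₁ : (Fin m → Om N pad) → ℝ := fun ω => ψ₁ (List.ofFn (fun j => gg N pad (ω j))) with hΨ₁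
  set Ψ₂ : (Fin m → Om N pad) → ℝ := fun ω => ψ₂ (List.ofFn (fun j => gg N pad (ω j))) with hΨ₂
  have hQm : ∑ ω : Fin m → Om N pad, ∏ j, Q (ω j) = 1 := prod_sum_one Q hQ1 m
  have hle : ∑ ω : Fin m → Om N pad, (∏ j, Q (ω j)) * Ψ₁ ω
      ≤ ∑ ω : Fin m → Om N pad, ((∏ j, Q (ω j)) - (∏ j, Q (ω j)) * Ψ₂ ω) := by
    apply Finset.sum_le_sum
    intro ω _
    have hq : 0 ≤ ∏ j, Q (ω j) := Finset.prod_nonneg (fun j _ => hQ0 (ω j))
    have : Ψ₁ ω ≤ 1 - Ψ₂ ω := by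
      have := h12 (List.ofFn (fun j => gg N pad (ω j)))
      simp only [hΨ₁, hΨ₂]
      linarith
    nlinarith [mul_le_mul_of_nonneg_left this hq]
  rw [Finset.sum_sub_distrib, hQm] at hle
  have hgap : 1 / 3 ≤ ∑ ω : Fin m → Om N pad, (∏ j, P (ω j)) * Ψ₁ ω
      - ∑ ω : Fin m → Om N pad, (∏ j, Q (ω j)) * Ψ₁ ω := by
    linarith
  have htp := two_point P Q hP0 hQ0 hP1 hQ1 m Ψ₁ (fun ω => h1 _)
    (fun ω => by
      have a := h12 (List.ofFn (fun j => gg N pad (ω j)))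
      have b := h2 (List.ofFn (fun j => gg N pad (ω j)))
      simp only [hΨ₁]
      linarith) hgap
  have hdel := delta_Om q hq0 hq1 N pad (A - 1) A A (A - 1)
  rw [hdel] at htp
  exact htp

end Vale.Agent.P321
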