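import Vale.Agent.P321.Del1

/-!
# Real powers and the final constant
-/

namespace Vale.Agent.P321

open Finset

/-- The square of `n^(3/2)` is `n^3`. -/
theorem rpow_three_half_sq (n : ℕ) : ((n : ℝ) ^ ((3 : ℝ) / 2)) ^ 2 = (n : ℝ) ^ 3 := by
  have hn : (0 : ℝ) ≤ (n : ℝ) := Nat.cast_nonneg n
  rw [← Real.rpow_natCast, ← Real.rpow_mul hn, ← Real.rpow_natCast]
  norm_num

/-- Sketch: `((n:ℝ)^(3/2))^2 = n^3` (`Real.rpow_natCast`, `Real.rpow_mul`), so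
`(n^(3/2))^2 ≤ (√K m)^2`, hence `n^(3/2) ≤ √K m` (`abs_le_of_sq_le_sq'` / `pow_le_pow_left₀`
contrapositive, `Real.sq_sqrt`), then divide by `√K > 0`. -/
theorem rpow_le_of_cube_le (K : ℝ) (hK : 0 < K) (n m : ℕ) (h : (n : ℝ) ^ 3 ≤ K * (m : ℝ) ^ 2) :
    (1 / Real.sqrt K) * (n : ℝ) ^ ((3 : ℝ) / 2) ≤ m := by
  have hs : 0 < Real.sqrt K := Real.sqrt_pos.mpr hK
  have hm : (0 : ℝ) ≤ (m : ℝ) := Nat.cast_nonneg m
  have h1 : ((n : ℝ) ^ ((3 : ℝ) / 2)) ^ 2 ≤ (Real.sqrt K * m) ^ 2 := by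
    rw [rpow_three_half_sq, mul_pow, Real.sq_sqrt hK.le]
    exact h
  have h2 : (n : ℝ) ^ ((3 : ℝ) / 2) ≤ Real.sqrt K * m :=
    le_trans (le_abs_self _) (abs_le_of_sq_le_sq h1 (mul_nonneg hs.le hm))
  rw [one_div, inv_mul_le_iff₀ hs]
  exact h2

/-- `n^(3/2) ≤ 3` for `n ≤ 2` (its square is `n^3 ≤ 8 ≤ 9`). -/
theorem rpow_small (n : ℕ) (hn : n ≤ 2) : (n : ℝ) ^ ((3 : ℝ) / 2) ≤ 3 := by
  have h1 : ((n : ℝ) ^ ((3 : ℝ) / 2)) ^ 2 ≤ (3 : ℝ) ^ 2 := by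
    rw [rpow_three_half_sq]
    have h2 : (n : ℝ) ≤ 2 := by exact_mod_cast hn
    have h3 : (n : ℝ) ^ 3 ≤ (2 : ℝ) ^ 3 := pow_le_pow_left₀ (Nat.cast_nonneg n) h2 3
    linarith
  exact le_trans (le_abs_self _) (abs_le_of_sq_le_sq h1 (by norm_num))

/-- The constant in `n^3 ≤ K2 * m^2`. -/
noncomputable def K2 (q : ℝ) : ℝ := 17496 * (4 * c0 q ^ 2 * (1 - q ^ 2) / q ^ 6) / q ^ 2

theorem K2_pos (q : ℝ) (hq0 : 0 < q) (hq1 : q < 1) : 0 < K2 q := by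
  have hc : 0 < c0 q := c0_pos q hq0 hq1
  have h1 : 0 < 1 - q ^ 2 := by nlinarith
  unfold K2
  positivity

end Vale.Agent.P321
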