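import Vale.Agent.P321.Main2
import Vale.Agent.P321.Main3
import Vale.Agent.P321.Del5

/-!
# The lower bound `n^3 ≤ K2 * m^2`
-/

namespace Vale.Agent.P321

open Finset

/-- Purely numerical step.
Sketch: square `h`: `1 ≤ 81 m^2 (1/q^2) D^2 ≤ 81 m^2 (1/q^2) * 4 c0^2 θ / (q^6 A^3)`, so
`A^3 ≤ 81 * (4 c0^2 θ / q^6) / q^2 * m^2`; `n^3 ≤ 216 A^3`; `216 * 81 = 17496`. -/
theorem cube_le_of_bound (q : ℝ) (hq0 : 0 < q) (hq1 : q < 1) (A n m : ℕ) (hA : 1 ≤ A)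
    (hn : n ≤ 6 * A) (D : ℝ) (hD0 : 0 ≤ D)
    (hD : D ^ 2 ≤ 4 * c0 q ^ 2 * (1 - q ^ 2) / (q ^ 6 * (A : ℝ) ^ 3))
    (h : 1 ≤ 9 * (m : ℝ) * ((1 / q) * D)) :
    (n : ℝ) ^ 3 ≤ K2 q * (m : ℝ) ^ 2 := by
  have hA' : (0 : ℝ) < A := by exact_mod_cast hA
  have hn' : (n : ℝ) ≤ 6 * A := by exact_mod_cast hn
  have hn0 : (0 : ℝ) ≤ n := Nat.cast_nonneg n
  set E : ℝ := 4 * c0 q ^ 2 * (1 - q ^ 2) / q ^ 6 with hE
  have hD' : D ^ 2 ≤ E / (A : ℝ) ^ 3 := by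
    have : 4 * c0 q ^ 2 * (1 - q ^ 2) / (q ^ 6 * (A : ℝ) ^ 3) = E / (A : ℝ) ^ 3 := by
      rw [hE]; field_simp
    rw [← this]; exact hD
  have hsq : (1 : ℝ) ≤ (9 * (m : ℝ) * ((1 / q) * D)) ^ 2 := by
    have : (1 : ℝ) ^ 2 ≤ (9 * (m : ℝ) * ((1 / q) * D)) ^ 2 :=
      pow_le_pow_left₀ (by norm_num) h 2
    simpa using this
  have hexp : (9 * (m : ℝ) * ((1 / q) * D)) ^ 2 = 81 * (m : ℝ) ^ 2 / q ^ 2 * D ^ 2 := by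
    field_simp; ring
  rw [hexp] at hsq
  have hcoef : 0 ≤ 81 * (m : ℝ) ^ 2 / q ^ 2 := by positivity
  have h2 : (1 : ℝ) ≤ 81 * (m : ℝ) ^ 2 / q ^ 2 * (E / (A : ℝ) ^ 3) :=
    hsq.trans (mul_le_mul_of_nonneg_left hD' hcoef)
  have hA3 : (0 : ℝ) < (A : ℝ) ^ 3 := by positivity
  have h3 : (A : ℝ) ^ 3 ≤ 81 * (m : ℝ) ^ 2 / q ^ 2 * E := by
    have : 81 * (m : ℝ) ^ 2 / q ^ 2 * (E / (A : ℝ) ^ 3)
        = (81 * (m : ℝ) ^ 2 / q ^ 2 * E) / (A : ℝ) ^ 3 := by ring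
    rw [this, le_div_iff₀ hA3] at h2
    linarith
  have h4 : (n : ℝ) ^ 3 ≤ (6 * (A : ℝ)) ^ 3 := pow_le_pow_left₀ hn0 hn' 3
  have h5 : K2 q * (m : ℝ) ^ 2 = 216 * (81 * (m : ℝ) ^ 2 / q ^ 2 * E) := by
    unfold K2; rw [hE]; ring
  rw [h5]
  calc (n : ℝ) ^ 3 ≤ (6 * (A : ℝ)) ^ 3 := h4
    _ = 216 * (A : ℝ) ^ 3 := by ring
    _ ≤ 216 * (81 * (m : ℝ) ^ 2 / q ^ 2 * E) := by linarith

/-- Sketch: `A = (n+1)/4 ≥ 1`, `r = (n+1) % 4`, so `n = 4A - 1 + r` and `n ≤ 6A` (`omega`).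
The vectors `xM = ⟨strM A r, _⟩`, `xP = ⟨strP A r, _⟩ : List.Vector Bool n` are different
(`strM_ne_strP`).  Apply `two_strings_bound` with `ψ₁ ws = est ws xM`, `ψ₂ ws = est ws xP`
(`est_pair_le`; `successProb` unfolds to `samplesExp q x.toList m _`), then `cube_le_of_bound`
with `D = DeltaA q A` (`DeltaA_nonneg`, `DeltaA_sq_le`). -/
theorem cube_le (q : ℝ) (hq0 : 0 < q) (hq1 : q < 1) (n m : ℕ) (hn : 3 ≤ n)
    (est : List (List Bool) → List.Vector Bool n → ℝ) (h : IsEstimator est)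
    (hs : ∀ x, 2 / 3 ≤ successProb q m est x) :
    (n : ℝ) ^ 3 ≤ K2 q * (m : ℝ) ^ 2 := by
  obtain ⟨A, r, hA, hnA, hn6⟩ : ∃ A r : ℕ, 1 ≤ A ∧ 4 * A - 1 + r = n ∧ n ≤ 6 * A :=
    ⟨(n + 1) / 4, (n + 1) % 4, by omega, by omega, by omega⟩
  let xM : List.Vector Bool n := ⟨strM A r, by rw [strM_length A r hA, hnA]⟩
  let xP : List.Vector Bool n := ⟨strP A r, by rw [strP_length A r hA, hnA]⟩
  have hne : xM ≠ xP := by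
    intro heq
    exact strM_ne_strP A r hA (congrArg Subtype.val heq)
  have hb := two_strings_bound q hq0 hq1 A hA r m (fun ws => est ws xM) (fun ws => est ws xP)
    (fun ws => h.1 ws xM) (fun ws => h.1 ws xP) (fun ws => est_pair_le est h xM xP hne ws)
    (hs xM) (hs xP)
  exact cube_le_of_bound q hq0 hq1 A n m hA hn6 (DeltaA q A) (DeltaA_nonneg q hq0 hq1 A)
    (DeltaA_sq_le q hq0 hq1 A hA) hb

end Vale.Agent.P321
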