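import Mathlib

/-!
# Product weights on `Fin M → τ`: marginals
-/

namespace Vale.Agent.P321

open Finset

/-- Sum of a product over all functions (this is `Finset.prod_univ_sum` with
`Fintype.piFinset_univ`, read backwards). -/
theorem pi_sum_prod {τ : Type*} [Fintype τ] (M : ℕ) (h : Fin M → τ → ℝ) :
    ∑ z : Fin M → τ, ∏ j, h j (z j) = ∏ j, ∑ t, h j t := by
  classical
  rw [Finset.prod_univ_sum, Fintype.piFinset_univ]

/-- One-coordinate marginal of a product probability weight.
Sketch: `(∏ j, π (z j)) * f (z k) = ∏ j, h j (z j)` with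
`h j t = π t * (if j = k then f t else 1)` (`Finset.prod_mul_distrib`, `Finset.prod_ite_eq'`);
`pi_sum_prod`; all factors `j ≠ k` are `1` (`Finset.prod_eq_single k`). -/
theorem pi_sum_one {τ : Type*} [Fintype τ] (π : τ → ℝ) (h1 : ∑ t, π t = 1) (M : ℕ) (k : Fin M)
    (f : τ → ℝ) :
    ∑ z : Fin M → τ, (∏ j, π (z j)) * f (z k) = ∑ t, π t * f t := by
  classical
  have key : ∀ z : Fin M → τ, (∏ j, π (z j)) * f (z k)
      = ∏ j, (π (z j) * (if j = k then f (z j) else 1)) := by
    intro z
    rw [Finset.prod_mul_distrib]
    congr 1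
    rw [Finset.prod_eq_single k]
    · simp
    · intro b _ hb
      simp [hb]
    · intro hk
      exact absurd (Finset.mem_univ k) hk
  simp_rw [key]
  rw [pi_sum_prod M (fun j t => π t * (if j = k then f t else 1))]
  rw [Finset.prod_eq_single k]
  · simp
  · intro b _ hb
    simp [hb, h1]
  · intro hk
    exact absurd (Finset.mem_univ k) hk

/-- Two-coordinate marginal of a product probability weight (independence).
Sketch: as `pi_sum_one` with
`h j t = π t * ((if j = k then f t else 1) * (if j = l then g t else 1))`; the product over `j`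
has only the two nontrivial factors `j = k` and `j = l`
(`Finset.prod_eq_mul k l` or remove `k` and `l` with `Finset.mul_prod_erase`). -/
theorem pi_sum_two {τ : Type*} [Fintype τ] (π : τ → ℝ) (h1 : ∑ t, π t = 1) (M : ℕ)
    (k l : Fin M) (hkl : k ≠ l) (f g : τ → ℝ) :
    ∑ z : Fin M → τ, (∏ j, π (z j)) * (f (z k) * g (z l))
      = (∑ t, π t * f t) * ∑ t, π t * g t := by
  classical
  have key : ∀ z : Fin M → τ, (∏ j, π (z j)) * (f (z k) * g (z l))
      = ∏ j, (π (z j) * ((if j = k then f (z j) else 1) * (if j = l then g (z j) else 1))) := by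
    intro z
    rw [Finset.prod_mul_distrib, Finset.prod_mul_distrib]
    congr 1
    congr 1
    · rw [Finset.prod_eq_single k]
      · simp
      · intro b _ hb
        simp [hb]
      · intro hk
        exact absurd (Finset.mem_univ k) hk
    · rw [Finset.prod_eq_single l]
      · simp
      · intro b _ hb
        simp [hb]
      · intro hk
        exact absurd (Finset.mem_univ l) hk
  simp_rw [key]
  rw [pi_sum_prod M
    (fun j t => π t * ((if j = k then f t else 1) * (if j = l then g t else 1)))]
  rw [Finset.prod_eq_mul k l hkl]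
  · simp [hkl, hkl.symm]
  · intro b _ hb
    simp [hb.1, hb.2, h1]
  · intro hk
    exact absurd (Finset.mem_univ k) hk
  · intro hl
    exact absurd (Finset.mem_univ l) hl

end Vale.Agent.P321
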