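import Vale.Agent.P321.Mom1

/-!
# Variance of a weighted sum of independent indicators
-/

namespace Vale.Agent.P321

open Finset

/-- Variance of `∑ c k * 1[z k = t0]` under a product probability weight.
Sketch: put `f t = (if t = t0 then 1 else 0) - π t0`.  Then `∑ t, π t * f t = 0` and
`∑ t, π t * f t ^ 2 = π t0 * (1 - π t0)` (split `f`, use `Finset.sum_ite_eq'` and `h1`).
Expand the square as a double sum (`Finset.sum_mul_sum`, `sq`), exchange with the sum over `z`
(`Finset.mul_sum`, `Finset.sum_comm`); the term `(k, l)` is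
`c k * c l * ∑ z, (∏ π) * (f (z k) * f (z l))`, which is `0` for `k ≠ l` (`pi_sum_two`) and
`c k ^ 2 * π t0 * (1 - π t0)` for `k = l` (`pi_sum_one` with `fun t => f t * f t`). -/
theorem indep_var {τ : Type*} [Fintype τ] [DecidableEq τ] (π : τ → ℝ) (h1 : ∑ t, π t = 1)
    (t0 : τ) (M : ℕ) (c : Fin M → ℝ) :
    ∑ z : Fin M → τ, (∏ j, π (z j))
        * (∑ k, c k * ((if z k = t0 then (1 : ℝ) else 0) - π t0)) ^ 2
      = π t0 * (1 - π t0) * ∑ k, c k ^ 2 := by
  set f : τ → ℝ := fun t => (if t = t0 then (1 : ℝ) else 0) - π t0 with hf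
  have hite : ∑ t, π t * (if t = t0 then (1 : ℝ) else 0) = π t0 := by
    simp
  have hf0 : ∑ t, π t * f t = 0 := by
    have : ∀ t, π t * f t = π t * (if t = t0 then (1 : ℝ) else 0) - π t * π t0 := by
      intro t
      simp only [hf]
      ring
    simp_rw [this]
    rw [Finset.sum_sub_distrib, hite, ← Finset.sum_mul, h1]
    ring
  have hf2 : ∑ t, π t * (f t * f t) = π t0 * (1 - π t0) := by
    have : ∀ t, π t * (f t * f t)
        = (1 - 2 * π t0) * (π t * (if t = t0 then (1 : ℝ) else 0)) + π t * (π t0 * π t0) := by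
      intro t
      simp only [hf]
      by_cases h : t = t0
      · simp only [h, if_true]
        ring
      · simp only [h, if_false]
        ring
    simp_rw [this]
    rw [Finset.sum_add_distrib, ← Finset.mul_sum, hite, ← Finset.sum_mul, h1]
    ring
  have expand : ∀ z : Fin M → τ, (∏ j, π (z j)) * (∑ k, c k * f (z k)) ^ 2
      = ∑ k, ∑ l, c k * c l * ((∏ j, π (z j)) * (f (z k) * f (z l))) := by
    intro z
    rw [sq, Finset.sum_mul_sum, Finset.mul_sum]
    refine Finset.sum_congr rfl (fun k _ => ?_)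
    rw [Finset.mul_sum]
    refine Finset.sum_congr rfl (fun l _ => ?_)
    ring
  have goal' : ∑ z : Fin M → τ, (∏ j, π (z j)) * (∑ k, c k * f (z k)) ^ 2
      = π t0 * (1 - π t0) * ∑ k, c k ^ 2 := by
    simp_rw [expand]
    rw [Finset.sum_comm]
    rw [Finset.mul_sum]
    refine Finset.sum_congr rfl (fun k _ => ?_)
    rw [Finset.sum_comm]
    rw [Finset.sum_eq_single k]
    · rw [← Finset.mul_sum, pi_sum_one π h1 M k (fun t => f t * f t), hf2]
      ring
    · intro l _ hl
      rw [← Finset.mul_sum, pi_sum_two π h1 M k l (Ne.symm hl) f f, hf0]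
      ring
    · intro hk
      exact absurd (Finset.mem_univ k) hk
  exact goal'

end Vale.Agent.P321
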