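import Mathlib

/-!
# Negative moments of the binomial distribution, I
-/

namespace Vale.Agent.P321

open Finset

/-- `E[1/(N+1-L)^2] ≤ 2 / ((N+1)(N+2) s^2)` for `L ~ Bin(N, θ)`, `s = 1 - θ`.
Sketch: for `L ≤ N`: `1/(N+1-L)^2 ≤ 2/((N+1-L)(N+2-L))` and
`C(N,L) (N+1)(N+2) = C(N+2,L) (N+1-L)(N+2-L)` (`Nat.succ_mul_choose_eq`-type identities, or
`Nat.choose_mul_succ_eq` twice: `C(N+1,L) (N+1-L) = C(N,L) (N+1)`).  Hence each term is at most
`2 / ((N+1)(N+2) s^2) * C(N+2,L) θ^L s^(N+2-L)`, and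
`∑_{L ≤ N} C(N+2,L) θ^L s^(N+2-L) ≤ ∑_{L ≤ N+2} ... = (θ+s)^(N+2) = 1` (`add_pow`,
`Finset.sum_le_sum_of_subset_of_nonneg`). -/
theorem negmom_sq (θ s : ℝ) (hθ : 0 ≤ θ) (hs : 0 < s) (h1 : θ + s = 1) (N : ℕ) :
    ∑ L ∈ range (N + 1), (N.choose L : ℝ) * θ ^ L * s ^ (N - L) / ((N : ℝ) + 1 - L) ^ 2
      ≤ 2 / (((N : ℝ) + 1) * (N + 2) * s ^ 2) := by
  have hN1 : (0 : ℝ) < (N : ℝ) + 1 := by positivity
  have hN2 : (0 : ℝ) < (N : ℝ) + 2 := by positivity
  set c : ℝ := 2 / (((N : ℝ) + 1) * (N + 2) * s ^ 2) with hc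
  have hc0 : 0 ≤ c := by positivity
  -- termwise bound
  have hterm : ∀ L ∈ range (N + 1),
      (N.choose L : ℝ) * θ ^ L * s ^ (N - L) / ((N : ℝ) + 1 - L) ^ 2
        ≤ c * (θ ^ L * s ^ (N + 2 - L) * ((N + 2).choose L : ℝ)) := by
    intro L hL
    have hLN : L ≤ N := Nat.lt_succ_iff.mp (mem_range.mp hL)
    have hLr : (L : ℝ) ≤ N := by exact_mod_cast hLN
    have ha : (1 : ℝ) ≤ (N : ℝ) + 1 - L := by linarith
    have ha0 : (0 : ℝ) < (N : ℝ) + 1 - L := by linarith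
    have ha1 : (0 : ℝ) < (N : ℝ) + 2 - L := by linarith
    have e1 : (N.choose L : ℝ) * ((N : ℝ) + 1) = ((N + 1).choose L : ℝ) * ((N : ℝ) + 1 - L) := by
      have h := Nat.choose_mul_succ_eq N L
      have h' : ((N.choose L * (N + 1) : ℕ) : ℝ) = (((N + 1).choose L * (N + 1 - L) : ℕ) : ℝ) := by
        exact_mod_cast h
      have hsub : ((N + 1 - L : ℕ) : ℝ) = (N : ℝ) + 1 - L := by
        rw [Nat.cast_sub (by omega)]; push_cast; ring
      rw [Nat.cast_mul, Nat.cast_mul, hsub] at h'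
      push_cast at h'
      exact h'
    have e2 : ((N + 1).choose L : ℝ) * ((N : ℝ) + 2) = ((N + 2).choose L : ℝ) * ((N : ℝ) + 2 - L) := by
      have h := Nat.choose_mul_succ_eq (N + 1) L
      have h' : (((N + 1).choose L * (N + 1 + 1) : ℕ) : ℝ)
          = (((N + 1 + 1).choose L * (N + 1 + 1 - L) : ℕ) : ℝ) := by
        exact_mod_cast h
      have hsub : ((N + 1 + 1 - L : ℕ) : ℝ) = (N : ℝ) + 2 - L := by
        rw [Nat.cast_sub (by omega)]; push_cast; ring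
      rw [Nat.cast_mul, Nat.cast_mul, hsub] at h'
      push_cast at h'
      have : ((N : ℝ) + 1 + 1) = (N : ℝ) + 2 := by ring
      rw [this] at h'
      exact h'
    have e3 : ((N + 2).choose L : ℝ)
        = (N.choose L : ℝ) * ((N : ℝ) + 1) * ((N : ℝ) + 2)
            / (((N : ℝ) + 1 - L) * ((N : ℝ) + 2 - L)) := by
      rw [eq_div_iff (by positivity)]
      calc ((N + 2).choose L : ℝ) * (((N : ℝ) + 1 - L) * ((N : ℝ) + 2 - L))
          = (((N + 2).choose L : ℝ) * ((N : ℝ) + 2 - L)) * ((N : ℝ) + 1 - L) := by ring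
        _ = (((N + 1).choose L : ℝ) * ((N : ℝ) + 2)) * ((N : ℝ) + 1 - L) := by rw [e2]
        _ = (((N + 1).choose L : ℝ) * ((N : ℝ) + 1 - L)) * ((N : ℝ) + 2) := by ring
        _ = ((N.choose L : ℝ) * ((N : ℝ) + 1)) * ((N : ℝ) + 2) := by rw [e1]
        _ = (N.choose L : ℝ) * ((N : ℝ) + 1) * ((N : ℝ) + 2) := by ring
    have hpow : s ^ (N + 2 - L) = s ^ (N - L) * s ^ 2 := by
      rw [← pow_add]; congr 1; omega
    have hrhs : c * (θ ^ L * s ^ (N + 2 - L) * ((N + 2).choose L : ℝ))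
        = (N.choose L : ℝ) * θ ^ L * s ^ (N - L)
            * (2 / (((N : ℝ) + 1 - L) * ((N : ℝ) + 2 - L))) := by
      rw [e3, hpow, hc]
      field_simp
    rw [hrhs, div_eq_mul_inv]
    apply mul_le_mul_of_nonneg_left _ (by positivity)
    rw [← one_div, div_le_div_iff₀ (by positivity) (by positivity)]
    nlinarith
  calc ∑ L ∈ range (N + 1), (N.choose L : ℝ) * θ ^ L * s ^ (N - L) / ((N : ℝ) + 1 - L) ^ 2
      ≤ ∑ L ∈ range (N + 1), c * (θ ^ L * s ^ (N + 2 - L) * ((N + 2).choose L : ℝ)) :=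
        sum_le_sum hterm
    _ ≤ ∑ L ∈ range (N + 2 + 1), c * (θ ^ L * s ^ (N + 2 - L) * ((N + 2).choose L : ℝ)) := by
        apply sum_le_sum_of_subset_of_nonneg
        · intro x hx
          rw [mem_range] at hx ⊢
          omega
        · intro i _ _
          positivity
    _ = c * (θ + s) ^ (N + 2) := by
        rw [add_pow, mul_sum]
    _ = c := by rw [h1]; simp

end Vale.Agent.P321
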