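import Vale.Agent.P321.Token

/-!
# The enriched experiment

The law of one trace of `(01)^a 0 (01)^b pad` (with `a + b = N`) is represented on a finite type
`Om N pad` which does not depend on `a, b`: either the extra `0` is deleted (left summand), or it
is kept and we record the list of tokens (with the extra `0` as a token `z`) and the trace of the
padding.
-/

namespace Vale.Agent.P321

open Finset

/-- Number of ways (weighted by binomial coefficients) in which a token list `z` of length
`L + 1` arises: the planted token is the `k`-th one, `k` of the first `a` blocks and `L - k` of the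
last `b` blocks are nonempty. -/
noncomputable def Dw (a b L : ℕ) (z : Fin (L + 1) → Tok) : ℝ :=
  ∑ k : Fin (L + 1), (a.choose k : ℝ) * (b.choose (L - k) : ℝ) * (if z k = Tok.z then 1 else 0)

/-- Observation space of the enriched experiment. -/
abbrev Om (N : ℕ) (pad : List Bool) : Type :=
  Idx (bg N ++ pad) ⊕ ((Σ L : Fin (N + 1), (Fin (L.1 + 1) → Tok)) × Idx pad)

/-- Weights of the enriched experiment for `(01)^a 0 (01)^b pad`. -/
noncomputable def PP (q : ℝ) (N : ℕ) (pad : List Bool) (a b : ℕ) : Om N pad → ℝ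
  | .inl i => q * idxWt q (bg N ++ pad) i
  | .inr (⟨L, z⟩, i) =>
      (1 / q) * q ^ (2 * (N - L.1)) * (∏ j, nu q (z j)) * Dw a b L.1 z * idxWt q pad i

/-- The trace as a function of the enriched observation. -/
def gg (N : ℕ) (pad : List Bool) : Om N pad → List Bool
  | .inl i => idxVal (bg N ++ pad) i
  | .inr (⟨_, z⟩, i) => flatL (List.ofFn z) ++ idxVal pad i

theorem Dw_nonneg (a b L : ℕ) (z : Fin (L + 1) → Tok) : 0 ≤ Dw a b L z := by
  unfold Dw
  refine Finset.sum_nonneg (fun k _ => ?_)
  split_ifs <;> positivity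

theorem PP_nonneg (q : ℝ) (hq0 : 0 < q) (hq1 : q < 1) (N : ℕ) (pad : List Bool) (a b : ℕ)
    (ω : Om N pad) : 0 ≤ PP q N pad a b ω := by
  rcases ω with i | ⟨⟨L, z⟩, i⟩
  · have h := idxWt_nonneg q hq0.le hq1.le (bg N ++ pad) i
    simp only [PP]
    positivity
  · have h := idxWt_nonneg q hq0.le hq1.le pad i
    have h2 := Dw_nonneg a b L.1 z
    have h3 : 0 ≤ ∏ j, nu q (z j) :=
      Finset.prod_nonneg (fun j _ => nu_nonneg q hq0.le hq1.le (z j))
    simp only [PP]
    positivity

/-- `Dw` in terms of the list of tokens (`Fin.sum_univ_eq_sum_range`, `List.getElem?_ofFn`). -/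
theorem Dw_eq_list (a b L : ℕ) (z : Fin (L + 1) → Tok) :
    (∑ k ∈ range (L + 1), (a.choose k : ℝ) * (b.choose (L - k) : ℝ)
        * (if (List.ofFn z)[k]? = some Tok.z then 1 else 0)) = Dw a b L z := by
  unfold Dw
  rw [← Fin.sum_univ_eq_sum_range (fun k => (a.choose k : ℝ) * (b.choose (L - k) : ℝ)
        * (if (List.ofFn z)[k]? = some Tok.z then 1 else 0)) (L + 1)]
  refine Finset.sum_congr rfl (fun k _ => ?_)
  have h : (List.ofFn z)[(k : ℕ)]? = some (z k) := by
    rw [List.getElem?_ofFn]
    have := k.2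
    simp
    omega
  rw [h]
  simp

/-- Sum over `Om N pad` (`Fintype.sum_sum_type`, `Fintype.sum_prod_type`, `Fintype.sum_sigma`). -/
theorem sum_Om (N : ℕ) (pad : List Bool) (F : Om N pad → ℝ) :
    ∑ ω, F ω = ∑ i : Idx (bg N ++ pad), F (.inl i)
      + ∑ L : Fin (N + 1), ∑ z : Fin (L.1 + 1) → Tok, ∑ i : Idx pad, F (.inr (⟨L, z⟩, i)) := by
  rw [Fintype.sum_sum_type, Fintype.sum_prod_type, Fintype.sum_sigma]

end Vale.Agent.P321
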