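import Mathlib

/-!
# Product weights on `Fin m → Ω`
-/

namespace Vale.Agent.P321

open Finset

/-- The total mass of a product weight.  Sketch: `Finset.prod_univ_sum` (or `Fintype.piFinset`)
turns `∏ j, ∑ ω, P ω` into the sum over functions; then `one_pow`. -/
theorem prod_sum_one {Ω : Type*} [Fintype Ω] (P : Ω → ℝ) (h1 : ∑ ω, P ω = 1) (m : ℕ) :
    ∑ ω : Fin m → Ω, ∏ j, P (ω j) = 1 := by
  classical
  have h := Finset.prod_univ_sum (fun _ : Fin m => (Finset.univ : Finset Ω))
    (fun (_ : Fin m) (ω : Ω) => P ω)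
  rw [Fintype.piFinset_univ] at h
  rw [← h]
  simp [h1]

/-- The Bhattacharyya coefficient of product weights is the power of the coefficient.
Sketch: `(∏ P) * (∏ Q) = ∏ (P * Q)`, `Real.sqrt` of a product of nonnegative numbers is the product
of the square roots (`Real.sqrt_prod` or induction), then `Finset.prod_univ_sum`. -/
theorem bc_pow {Ω : Type*} [Fintype Ω] (P Q : Ω → ℝ) (hP : ∀ ω, 0 ≤ P ω) (hQ : ∀ ω, 0 ≤ Q ω)
    (m : ℕ) :
    ∑ ω : Fin m → Ω, Real.sqrt ((∏ j, P (ω j)) * ∏ j, Q (ω j))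
      = (∑ ω, Real.sqrt (P ω * Q ω)) ^ m := by
  classical
  have h := Finset.prod_univ_sum (fun _ : Fin m => (Finset.univ : Finset Ω))
    (fun (_ : Fin m) (ω : Ω) => Real.sqrt (P ω * Q ω))
  rw [Fintype.piFinset_univ] at h
  have h2 : ∏ _j : Fin m, ∑ ω : Ω, Real.sqrt (P ω * Q ω)
      = (∑ ω, Real.sqrt (P ω * Q ω)) ^ m := by
    simp
  rw [← h2, h]
  refine Finset.sum_congr rfl fun ω _ => ?_
  rw [← Finset.prod_mul_distrib]
  have key : ∀ s : Finset (Fin m), Real.sqrt (∏ j ∈ s, P (ω j) * Q (ω j))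
      = ∏ j ∈ s, Real.sqrt (P (ω j) * Q (ω j)) := by
    intro s
    induction s using Finset.induction_on with
    | empty => simp
    | insert a s ha ih =>
      rw [Finset.prod_insert ha, Finset.prod_insert ha,
        Real.sqrt_mul (mul_nonneg (hP _) (hQ _)), ih]
  exact key Finset.univ

end Vale.Agent.P321
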