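import Vale.Agent.P321.Token

namespace Vale.Agent.P321

open Finset

/-- One background block in front of a string (two applications of `traceExp_cons`,
`Tok.sum_eq`, `ring`). -/
theorem traceExp_block (q : ℝ) (y : List Bool) (φ : List Bool → ℝ) :
    traceExp q (false :: true :: y) φ
      = q ^ 2 * traceExp q y φ
        + ∑ t : Tok, nu q t * traceExp q y (fun v => φ (t.flat ++ v)) := by
  rw [traceExp_cons, traceExp_cons, traceExp_cons, Tok.sum_eq]
  simp only [Tok.flat, nu, List.cons_append, List.nil_append]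
  ring

/-- Pascal step used in `traceExp_bg_append`: for every sequence `s`,
`∑_{k ≤ a+1} C(a+1,k) q^(2(a+1-k)) s k
  = q^2 ∑_{k ≤ a} C(a,k) q^(2(a-k)) s k + ∑_{k ≤ a} C(a,k) q^(2(a-k)) s (k+1)`.
Sketch: `Finset.sum_range_succ'` on the left, `Nat.choose_succ_succ`, and
`Nat.choose_succ_self` for the boundary term. -/
theorem pascal_step (q : ℝ) (a : ℕ) (s : ℕ → ℝ) :
    ∑ k ∈ range (a + 1 + 1), ((a + 1).choose k : ℝ) * q ^ (2 * (a + 1 - k)) * s k
      = q ^ 2 * ∑ k ∈ range (a + 1), (a.choose k : ℝ) * q ^ (2 * (a - k)) * s k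
        + ∑ k ∈ range (a + 1), (a.choose k : ℝ) * q ^ (2 * (a - k)) * s (k + 1) := by
  rw [Finset.sum_range_succ' _ (a + 1)]
  have h1 : ∀ k ∈ range (a + 1),
      ((a + 1).choose (k + 1) : ℝ) * q ^ (2 * (a + 1 - (k + 1))) * s (k + 1)
        = (a.choose k : ℝ) * q ^ (2 * (a - k)) * s (k + 1)
          + (a.choose (k + 1) : ℝ) * q ^ (2 * (a - k)) * s (k + 1) := by
    intro k _
    rw [Nat.choose_succ_succ, Nat.add_sub_add_right]
    push_cast
    ring
  rw [Finset.sum_congr rfl h1, Finset.sum_add_distrib]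
  have h2 : ∑ k ∈ range (a + 1), (a.choose (k + 1) : ℝ) * q ^ (2 * (a - k)) * s (k + 1)
      = q ^ 2 * ∑ k ∈ range a, (a.choose (k + 1) : ℝ) * q ^ (2 * (a - (k + 1))) * s (k + 1) := by
    rw [Finset.sum_range_succ, Nat.choose_succ_self, Finset.mul_sum]
    simp only [Nat.cast_zero, zero_mul, add_zero]
    refine Finset.sum_congr rfl ?_
    intro k hk
    have hk' : k < a := Finset.mem_range.mp hk
    have : 2 * (a - k) = 2 + 2 * (a - (k + 1)) := by omega
    rw [this, pow_add]
    ring
  have h4 : ∑ k ∈ range (a + 1), (a.choose k : ℝ) * q ^ (2 * (a - k)) * s k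
      = ∑ k ∈ range a, (a.choose (k + 1) : ℝ) * q ^ (2 * (a - (k + 1))) * s (k + 1)
        + q ^ (2 * a) * s 0 := by
    rw [Finset.sum_range_succ' _ a]
    simp only [Nat.choose_zero_right, Nat.cast_one, Nat.sub_zero, one_mul]
  rw [h2, h4]
  simp only [Nat.choose_zero_right, Nat.cast_one, Nat.sub_zero, one_mul]
  have : 2 * (a + 1) = 2 + 2 * a := by ring
  rw [this, pow_add]
  ring

/-- The trace of `(01)^a ++ y`: `k` of the `a` blocks are nonempty, their outputs are independent
tokens.
Sketch: induction on `a` generalizing `φ`.  Step: `bg (a+1) ++ y = false :: true :: (bg a ++ y)`,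
`traceExp_block`, the induction hypothesis for `φ` and for `fun v => φ (t.flat ++ v)`; with
`F u = traceExp q y (fun v => φ (flatL u ++ v))` one has
`S q (k+1) F = ∑ t, nu q t * S q k (fun u => F (t :: u))` and
`flatL (t :: u) ++ v = t.flat ++ (flatL u ++ v)` (`List.append_assoc`); exchange the sums over `t`
and `k` (`Finset.sum_comm`, `Finset.mul_sum`) and finish with `pascal_step`. -/
theorem traceExp_bg_append (q : ℝ) (a : ℕ) (y : List Bool) (φ : List Bool → ℝ) :
    traceExp q (bg a ++ y) φ
      = ∑ k ∈ range (a + 1), (a.choose k : ℝ) * q ^ (2 * (a - k))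
          * S q k (fun u => traceExp q y (fun v => φ (flatL u ++ v))) := by
  induction a generalizing φ with
  | zero =>
    simp [bg, S, flatL]
  | succ a ih =>
    have hb : bg (a + 1) ++ y = false :: true :: (bg a ++ y) := by
      simp [bg]
    rw [hb, traceExp_block, ih φ,
      pascal_step q a (fun k => S q k (fun u => traceExp q y (fun v => φ (flatL u ++ v))))]
    congr 1
    have h3 : ∀ t : Tok, nu q t * traceExp q (bg a ++ y) (fun v => φ (t.flat ++ v))
        = ∑ k ∈ range (a + 1), (a.choose k : ℝ) * q ^ (2 * (a - k))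
            * (nu q t * S q k (fun u => traceExp q y
                (fun v => φ (flatL (t :: u) ++ v)))) := by
      intro t
      rw [ih (fun v => φ (t.flat ++ v)), Finset.mul_sum]
      refine Finset.sum_congr rfl ?_
      intro k _
      simp only [flatL, List.append_assoc]
      ring
    rw [Finset.sum_congr rfl (fun t _ => h3 t), Finset.sum_comm]
    refine Finset.sum_congr rfl ?_
    intro k _
    rw [← Finset.mul_sum]
    rfl

end Vale.Agent.P321
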