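import Vale.Agent.P321.TraceRec

/-!
# Tokens: outputs of the blocks `01`

A block `01` of the background outputs nothing (probability `q^2`), `0`, `1` (probability
`(1-q) q` each) or `01` (probability `(1-q)^2`).
-/

namespace Vale.Agent.P321

open Finset

/-- Nonempty outputs of a block `01`. -/
inductive Tok
  | z
  | o
  | zo
  deriving DecidableEq

instance : Fintype Tok :=
  ⟨{Tok.z, Tok.o, Tok.zo}, by intro x; cases x <;> simp⟩

theorem Tok.sum_eq (f : Tok → ℝ) : ∑ t : Tok, f t = f Tok.z + f Tok.o + f Tok.zo := by
  have : (Finset.univ : Finset Tok) = {Tok.z, Tok.o, Tok.zo} := rfl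
  rw [this, Finset.sum_insert (by simp), Finset.sum_insert (by simp), Finset.sum_singleton]
  ring

/-- The bits of a token. -/
def Tok.flat : Tok → List Bool
  | .z => [false]
  | .o => [true]
  | .zo => [false, true]

/-- The probability that a block `01` outputs a given token. -/
noncomputable def nu (q : ℝ) : Tok → ℝ
  | .z => (1 - q) * q
  | .o => (1 - q) * q
  | .zo => (1 - q) ^ 2

/-- Concatenation of the bits of a list of tokens. -/
def flatL : List Tok → List Bool
  | [] => []
  | t :: u => t.flat ++ flatL u

/-- Weighted sum over all token lists of length `k`. -/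
noncomputable def S (q : ℝ) : ℕ → (List Tok → ℝ) → ℝ
  | 0, F => F []
  | (k + 1), F => ∑ t : Tok, nu q t * S q k (fun u => F (t :: u))

/-- The background string `(01)^a`. -/
def bg : ℕ → List Bool
  | 0 => []
  | (a + 1) => false :: true :: bg a

theorem nu_sum (q : ℝ) : ∑ t : Tok, nu q t = 1 - q ^ 2 := by
  rw [Tok.sum_eq]
  simp only [nu]
  ring

theorem nu_nonneg (q : ℝ) (hq0 : 0 ≤ q) (hq1 : q ≤ 1) (t : Tok) : 0 ≤ nu q t := by
  have h : 0 ≤ 1 - q := by linarith
  cases t <;> simp only [nu] <;> positivity

theorem flatL_append (u v : List Tok) : flatL (u ++ v) = flatL u ++ flatL v := by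
  induction u with
  | nil => simp [flatL]
  | cons t u ih => simp [flatL, ih]

theorem bg_length (a : ℕ) : (bg a).length = 2 * a := by
  induction a with
  | zero => simp [bg]
  | succ a ih => simp [bg, ih]; ring

theorem bg_append (a b : ℕ) : bg a ++ bg b = bg (a + b) := by
  induction a with
  | zero => simp [bg]
  | succ a ih =>
    have : a + 1 + b = (a + b) + 1 := by ring
    rw [this]
    simp [bg, ih]

theorem S_congr (q : ℝ) (k : ℕ) {F G : List Tok → ℝ} (h : ∀ u, F u = G u) :
    S q k F = S q k G := by
  have : F = G := funext h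
  rw [this]

/-- All the linearity lemmas: induction on `k` generalizing the functions. -/
theorem S_add (q : ℝ) (k : ℕ) (F G : List Tok → ℝ) :
    S q k (fun u => F u + G u) = S q k F + S q k G := by
  induction k generalizing F G with
  | zero => simp [S]
  | succ k ih =>
    simp only [S]
    rw [← Finset.sum_add_distrib]
    refine Finset.sum_congr rfl (fun t _ => ?_)
    rw [ih (fun u => F (t :: u)) (fun u => G (t :: u))]
    ring

theorem S_const_mul (q : ℝ) (k : ℕ) (c : ℝ) (F : List Tok → ℝ) :
    S q k (fun u => c * F u) = c * S q k F := by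
  induction k generalizing F with
  | zero => simp [S]
  | succ k ih =>
    simp only [S]
    rw [Finset.mul_sum]
    refine Finset.sum_congr rfl (fun t _ => ?_)
    rw [ih (fun u => F (t :: u))]
    ring

theorem S_zero (q : ℝ) (k : ℕ) : S q k (fun _ => 0) = 0 := by
  induction k with
  | zero => simp [S]
  | succ k ih => simp [S, ih]

theorem S_sum {ι : Type*} (q : ℝ) (k : ℕ) (s : Finset ι) (F : ι → List Tok → ℝ) :
    S q k (fun u => ∑ i ∈ s, F i u) = ∑ i ∈ s, S q k (F i) := by
  classical
  induction s using Finset.induction_on with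
  | empty => simp [S_zero]
  | insert a s ha ih =>
    simp only [Finset.sum_insert ha]
    rw [S_add q k (F a) (fun u => ∑ i ∈ s, F i u), ih]

end Vale.Agent.P321
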