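import Vale.Agent.P321.Defs

/-!
# Elementary properties of `traceExp`
-/

namespace Vale.Agent.P321

open Finset

theorem traceExp_nil (q : ℝ) (φ : List Bool → ℝ) : traceExp q [] φ = φ [] := by
  simp [traceExp]

/-- First-bit recursion: the first bit is deleted with probability `q`.
Sketch: `List.sublists'_cons`, `List.map_append`, `List.sum_append`, `List.map_map`; for
`w ∈ x.sublists'` one has `w.length ≤ x.length` (`List.mem_sublists'`, `List.Sublist.length_le`),
so `x.length + 1 - w.length = (x.length - w.length) + 1`; pull the constants out of the list sums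
(`List.sum_map_mul_left`), using `List.map_congr_left` for the membership condition. -/
theorem traceExp_cons (q : ℝ) (b : Bool) (x : List Bool) (φ : List Bool → ℝ) :
    traceExp q (b :: x) φ
      = q * traceExp q x φ + (1 - q) * traceExp q x (fun w => φ (b :: w)) := by
  unfold traceExp
  rw [List.sublists'_cons, List.map_append, List.sum_append, List.map_map,
    ← List.sum_map_mul_left, ← List.sum_map_mul_left]
  congr 1
  · congr 1
    apply List.map_congr_left
    intro w hw
    have hle : w.length ≤ x.length := (List.mem_sublists'.1 hw).length_le
    have h1 : (b :: x).length - w.length = (x.length - w.length) + 1 := by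
      simp only [List.length_cons]
      omega
    rw [h1, pow_succ]
    ring
  · congr 1
    apply List.map_congr_left
    intro w hw
    have h1 : (b :: x).length - (b :: w).length = x.length - w.length := by
      simp only [List.length_cons]
      omega
    simp only [Function.comp]
    rw [h1, List.length_cons, pow_succ]
    ring

theorem traceExp_congr (q : ℝ) (x : List Bool) {φ ψ : List Bool → ℝ} (h : ∀ w, φ w = ψ w) :
    traceExp q x φ = traceExp q x ψ := by
  have : φ = ψ := funext h
  rw [this]

theorem traceExp_add (q : ℝ) (x : List Bool) (φ ψ : List Bool → ℝ) :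
    traceExp q x (fun w => φ w + ψ w) = traceExp q x φ + traceExp q x ψ := by
  unfold traceExp
  rw [← List.sum_map_add]
  congr 1
  apply List.map_congr_left
  intro w _
  ring

theorem traceExp_const_mul (q : ℝ) (x : List Bool) (c : ℝ) (φ : List Bool → ℝ) :
    traceExp q x (fun w => c * φ w) = c * traceExp q x φ := by
  unfold traceExp
  rw [← List.sum_map_mul_left]
  congr 1
  apply List.map_congr_left
  intro w _
  ring

theorem traceExp_sum {ι : Type*} (q : ℝ) (x : List Bool) (s : Finset ι)
    (φ : ι → List Bool → ℝ) :
    traceExp q x (fun w => ∑ i ∈ s, φ i w) = ∑ i ∈ s, traceExp q x (φ i) := by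
  classical
  induction s using Finset.induction_on with
  | empty =>
    simp [traceExp]
  | insert a s ha ih =>
    simp only [Finset.sum_insert ha]
    rw [traceExp_add, ih]

/-- Total mass one (induction on `x` with `traceExp_cons`). -/
theorem traceExp_one (q : ℝ) (x : List Bool) : traceExp q x (fun _ => 1) = 1 := by
  induction x with
  | nil => simp [traceExp]
  | cons b x ih =>
    rw [traceExp_cons, ih]
    ring

/-- Index set for the subsequences of `y`. -/
abbrev Idx (y : List Bool) : Type := Fin (y.sublists'.length)

/-- The subsequence with index `i`. -/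
def idxVal (y : List Bool) (i : Idx y) : List Bool := y.sublists'.get i

/-- The probability of the set of kept positions with index `i`. -/
noncomputable def idxWt (q : ℝ) (y : List Bool) (i : Idx y) : ℝ :=
  (1 - q) ^ (idxVal y i).length * q ^ (y.length - (idxVal y i).length)

/-- Sketch: a list sum `(l.map f).sum` is `∑ i : Fin l.length, f (l.get i)`
(`Fin.sum_univ_getElem` applied to `l.map f`, or `List.sum_ofFn`). -/
theorem traceExp_eq_idx (q : ℝ) (y : List Bool) (φ : List Bool → ℝ) :
    traceExp q y φ = ∑ i : Idx y, idxWt q y i * φ (idxVal y i) := by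
  have key : ∀ (l : List (List Bool)) (f : List Bool → ℝ),
      (l.map f).sum = ∑ i : Fin l.length, f (l.get i) := by
    intro l f
    conv_lhs => rw [← List.ofFn_get l, List.map_ofFn, List.sum_ofFn]
    rfl
  unfold traceExp idxWt idxVal
  exact key _ _

theorem idxWt_nonneg (q : ℝ) (hq0 : 0 ≤ q) (hq1 : q ≤ 1) (y : List Bool) (i : Idx y) :
    0 ≤ idxWt q y i := by
  unfold idxWt
  have : 0 ≤ 1 - q := by linarith
  positivity

theorem idxWt_sum (q : ℝ) (y : List Bool) : ∑ i : Idx y, idxWt q y i = 1 := by
  have h := traceExp_eq_idx q y (fun _ => 1)
  rw [traceExp_one] at h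
  simpa using h.symm

end Vale.Agent.P321
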